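import Vale.Agent.P231.L3.Sys
import Vale.Agent.P231.S2II.Fun

/-!
# P231, stages 2 and 3: the system of data on the space of pairs, with the integral along the
spheres of `L`
-/

set_option maxSynthPendingDepth 3
set_option linter.unusedSectionVars false
set_option linter.unusedVariables false

open Bundle Manifold Set Filter Module
open scoped ContDiff Manifold Topology Real

namespace Vale.Agent.P231.L3

noncomputable section

open Vale.Agent.P234 Vale.Agent.P231 Vale.Agent.P231.Fm Vale.Agent.P231.W Vale.Agent.P231.WR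
  Vale.Agent.P231.H766 Vale.Agent.P231.WG Vale.Agent.P231.S2II

variable {E : Type*} [NormedAddCommGroup E] [NormedSpace ℝ E]
  {M : Type*} [MetricSpace M] [ChartedSpace E M]
  [RiemannianBundle (fun x : M => TangentSpace 𝓘(ℝ, E) x)]
  {e : ∀ x : M, TangentSpace 𝓘(ℝ, E) x → M}
  [FiniteDimensional ℝ E] [IsManifold 𝓘(ℝ, E) ∞ M]
  [IsContMDiffRiemannianBundle 𝓘(ℝ, E) ∞ E (fun x : M => TangentSpace 𝓘(ℝ, E) x)]
  [CompactSpace M] [ConnectedSpace M] [IsRiemannianManifold 𝓘(ℝ, E) M]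

theorem fibI_SL (F : Facts e) {D : ℝ} (hD : 0 < D) (hB : InjGE e D)
    (hdiam : ∀ p q : M, dist p q ≤ D) {l : ℕ} [NeZero l]
    (hP : ∀ x y : M, dist x y = D → finrank ℝ (H775.Pl e D x y) = l + 1)
    {b : Form (dPr e D)} (hb : Orn F hD hB hdiam (l := l) b) (hl : Odd l) :
    FibI F hD hB hdiam l (SL F hD hB hdiam hP hb hl) where
  d := SL_d F hD hB hdiam hP hb hl
  mul := SL_mul F hD hB hdiam hP hb hl
  deg := fun j w => (part_SL F hD hB hdiam hP hb hl (by have := NeZero.pos l; omega) w).symm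

/-- the form `b₀` on the space of pairs -/
def b0P (F : Facts e) {D : ℝ} (hD : 0 < D) (hB : InjGE e D)
    (hdiam : ∀ p q : M, dist p q ≤ D) (Om : Form (dM E M)) : Form (dPr e D) :=
  J (R F hD hB hdiam) (isFlow_R F hD hB hdiam).map (2 * π) (Form.pull Pr.v map_v (B0 F D Om))

/-- **the system of data on the space of pairs**, with the integral along the spheres of `L`
oriented by `b₀` -/
def mkSysSL (F : Facts e) {D : ℝ} (hD : 0 < D) (hB : InjGE e D)
    (hdiam : ∀ p q : M, dist p q ≤ D) {l N n : ℕ} [NeZero l] (hl : Odd l)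
    (hP : ∀ x y : M, dist x y = D → finrank ℝ (H775.Pl e D x y) = l + 1)
    (hN : finrank ℝ E = N + 1) (hN1 : 1 ≤ N)
    {Lam : Pr e D × ℝ → Pr e D} {Y : Pr e D → E} {ε₀ : ℝ}
    (hL : PushL F hD hB hdiam Lam Y ε₀)
    (g : Pr e D × ℝ → M) (hg : ((dPr e D).prod (Dif.lin ℝ)).Map (dM E M) g)
    (hg0 : ∀ b, g (b, 0) = foot b.v) (hg1 : ∀ b t, g (Lam (b, t), 1) = g (b, 1))
    (Om : Form (dM E M)) (hOe : Om.sg = Om) (hOd : Om.d = 0) (hOn : Om ^ (n + 2) = 0)
    (α : Form (dUT E M)) (hαo : α.sg = -α)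
    (hα : Form.pull (phi F) (map_phi F) α = pr α + dt)
    (I : Form (dUT E M) →ₗ[ℝ] ℝ) (hId : ∀ w : Form (dUT E M), I w.d = 0)
    (hIm : ∀ w, I w = I (Form.part (2 * N + 1) w))
    (hb : Orn F hD hB hdiam (l := l) (b0P F hD hB hdiam Om))
    (hbT : Form.pull (Th F hD hB hdiam) (map_Th F hD hB hdiam) (b0P F hD hB hdiam Om) =
      -b0P F hD hB hdiam Om) :
    H584.Sys (dPr e D) (dUT E M) (dM E M) n D (2 * π) :=
  mkSys F hD hB hdiam (NeZero.pos l) hP hN hL g hg hg0 hg1 Om hOe hOd hOn α hαo hα I hId hIm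
    (SL F hD hB hdiam hP hb hl) (fibI_SL F hD hB hdiam hP hb hl)
    (I_SL_Th F hD hB hdiam hP hb hl hN I hIm hId hbT)
    (SL_self F hD hB hdiam hP hb hl (by omega)).choose
    (SL_self F hD hB hdiam hP hb hl (by omega)).choose_spec.1.ne'
    (SL_self F hD hB hdiam hP hb hl (by omega)).choose_spec.2

end

end Vale.Agent.P231.L3
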