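import Vale.Agent.P231.L3.Core
import Vale.Agent.P231.L3.SysSL
import Vale.Agent.P231.L.Core
import Vale.Agent.P231.WQ.Rad
import Vale.Agent.P231.WG.FrameFr
import Vale.Agent.P231.WG.TopD
import Vale.Agent.P231.WG.Stokes
import Vale.Agent.P231.S2N.Main
import Vale.Agent.P231.H766.D4
import Vale.Agent.P231.CoZ.Val
import Vale.Agent.P231.Co.HSL
import Vale.Agent.P231.S2II.ValF
import Vale.Agent.P231.FE.Tow
import Vale.Agent.P231.FE.QPsi
import Vale.Agent.P231.FE.Lin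
import Vale.Agent.P231.Q2.Glue
import Vale.Agent.P231.H304.HvFin
import Vale.Agent.P231.A3.Rel

/-! P231, stages 2 and 3, block L: instantiation of the system of data. -/

set_option maxSynthPendingDepth 3
set_option linter.unusedSectionVars false
set_option linter.unusedVariables false

open Bundle Manifold Set Filter Module MeasureTheory
open scoped ContDiff Manifold Topology ENNReal Real

namespace Vale.Agent.P231.L3

noncomputable section

open Vale.Agent.P234 Vale.Agent.P231 Vale.Agent.P231.Fm Vale.Agent.P231.W Vale.Agent.P231.WR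
  Vale.Agent.P231.H766 Vale.Agent.P231.WG Vale.Agent.P231.S2II Vale.Agent.P231.WQ

variable {E : Type*} [NormedAddCommGroup E] [NormedSpace ℝ E]
  {M : Type*} [MetricSpace M] [ChartedSpace E M]
  [RiemannianBundle (fun x : M => TangentSpace 𝓘(ℝ, E) x)]
  {e : ∀ x : M, TangentSpace 𝓘(ℝ, E) x → M}
  [FiniteDimensional ℝ E] [IsManifold 𝓘(ℝ, E) ∞ M]
  [IsContMDiffRiemannianBundle 𝓘(ℝ, E) ∞ E (fun x : M => TangentSpace 𝓘(ℝ, E) x)]
  [CompactSpace M] [ConnectedSpace M] [IsRiemannianManifold 𝓘(ℝ, E) M]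
  (F : Facts e) {D : ℝ} (hD : 0 < D) (hB : InjGE e D) (hdiam : ∀ p q : M, dist p q ≤ D)
  {m n N : ℕ}

section sys

variable [MeasurableSpace M] [BorelSpace M]
  (hl : ∀ x y : M, dist x y = D → finrank ℝ (H775.Pl e D x y) = 2 * m + 2)
  (hN : finrank ℝ E = N + 1) (hE : N + 1 = (2 * m + 2) * (n + 1))
  {p : M}
  {Pi : TangentSpace 𝓘(ℝ, E) p → TangentSpace 𝓘(ℝ, E) p →L[ℝ] TangentSpace 𝓘(ℝ, E) p}
  {o : TangentSpace 𝓘(ℝ, E) p → Fm.Lam (TangentSpace 𝓘(ℝ, E) p)}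
  {ρ : TangentSpace 𝓘(ℝ, E) p → ℝ} {r₀ : ℝ}
  (hJ : FE.LineP e D p m Pi o) (hρ : WE.Rho e D p ρ r₀) {a : ℝ} (ha : a ≠ 0)
  {Lm : Pr e D × ℝ → Pr e D} {Y : Pr e D → E} {ε₀ : ℝ} (hL : PushL F hD hB hdiam Lm Y ε₀)
  (g : Pr e D × ℝ → M) (hg : ((dPr e D).prod (Dif.lin ℝ)).Map (dM E M) g)
  (hg0 : ∀ b, g (b, 0) = foot b.v) (hg1 : ∀ b t, g (Lm (b, t), 1) = g (b, 1))
  {R : ℝ} (X : Fr e p R) (v0 : UT E M) {r : Eu E → ℝ} {K : Set (Eu E)} (hr : Q.Cut r K)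
  (hDR : D < R) (b : OrthonormalBasis (Fin (N + 1)) ℝ (Eu E))

include hN hE in
theorem two_le : 2 ≤ finrank ℝ E := by
  rw [hN, hE]
  nlinarith

include hN hE in
theorem FF_pow : (FE.FF F hD hB hdiam hl hJ hρ a) ^ (n + 2) = 0 := by
  have h1 : WA.DimLE (dM E M) (N + 1) := L.dimLE_bridge (WF.dimLE_M E M hN)
  refine h1.pow_eq_zero (j := 2 * m + 2) ?_ (S2II.isDeg_FF F hD hB hdiam hl hJ hρ a)
  rw [hE]
  nlinarith

/-- **the system of data of the argument** -/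
def inst : H584.Sys (dPr e D) (dUT E M) (dM E M) n D (2 * π) :=
  have : NeZero (2 * m + 1) := ⟨by omega⟩
  mkSysSL F hD hB hdiam (l := 2 * m + 1) (n := n) ⟨m, rfl⟩ hl hN
    (by have := Nat.zero_le m; nlinarith) hL g hg hg0 hg1
    (FE.FF F hD hB hdiam hl hJ hρ a)
    ((S2II.isDeg_FF F hD hB hdiam hl hJ hρ a).sg_of_even ⟨m + 1, by ring⟩)
    (FE.FF_d F hD hB hdiam hl hJ hρ a)
    (FF_pow F hD hB hdiam hl hN hE hJ hρ)
    (CV.alpha E M) (CV.isDeg_alpha.sg_of_odd (by norm_num)) (CV.pull_phi_alpha F)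
    (II X v0 b.toBasis hr hDR)
    (fun w => II_d F hD hB hdiam (fun x y h => by rw [hl x y h]; omega) X v0 b.toBasis hr hDR w)
    (fun w => II_part X v0 b.toBasis hr hDR rfl w)
    (S2II.orn_b0P F hD hB hdiam (two_le hN hE) hl hJ hρ ha)
    (S2II.b0P_Th F hD hB hdiam _)

/-- the power of the differential of the contact form vanishes -/
theorem inst_α : (inst F hD hB hdiam hl hN hE hJ hρ ha hL g hg hg0 hg1 X v0 hr hDR b).α.d ^ (N + 1) = 0 := by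
  have h1 : WA.DimLE (dUT E M) (2 * N + 1) := L.dimLE_bridge (WF.dimLE_UT E M hN)
  have h2 : Form.IsDeg 2 (inst F hD hB hdiam hl hN hE hJ hρ ha hL g hg hg0 hg1 X v0 hr hDR b).α.d := CV.isDeg_alpha.d
  exact h1.pow_eq_zero (by omega) h2

/-- the contact volume -/
theorem inst_vol : |(inst F hD hB hdiam hl hN hE hJ hρ ha hL g hg hg0 hg1 X v0 hr hDR b).I ((inst F hD hB hdiam hl hN hE hJ hρ ha hL g hg hg0 hg1 X v0 hr hDR b).α * (inst F hD hB hdiam hl hN hE hJ hρ ha hL g hg hg0 hg1 X v0 hr hDR b).α.d ^ N)| = (N.factorial : ℝ) *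
      (2 * √Real.pi ^ (N + 1) / Real.Gamma (((N : ℝ) + 1) / 2)) *
        (Blaschke.riemannianVolume (N + 1) M univ).toReal :=
  CV.abs_II_alpha F hD hB hdiam hN X v0 hr hDR b

/-- the value of the right-hand side -/
theorem inst_q (hm : 1 ≤ m) (hrad : ∀ y z : Eu E, (inner ℝ y z : ℝ) = 0 → fderiv ℝ r y z = 0) :
    |(inst F hD hB hdiam hl hN hE hJ hρ ha hL g hg hg0 hg1 X v0 hr hDR b).I ((inst F hD hB hdiam hl hN hE hJ hρ ha hL g hg hg0 hg1 X v0 hr hDR b).B0 * ((inst F hD hB hdiam hl hN hE hJ hρ ha hL g hg hg0 hg1 X v0 hr hDR b).Fx ^ (n + 1) * (inst F hD hB hdiam hl hN hE hJ hρ ha hL g hg hg0 hg1 X v0 hr hDR b).Fb ^ n))| ≤ FE.kap m a ^ (2 * (n + 1)) := by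
  have h0 : finrank ℝ E = (2 * m + 2) * (n + 1) := hN.trans hE
  have hs : ∀ v : UT E M, ∃ q : Pr e D, q.v = v := fun v => by
    have : NeZero (2 * m + 1) := ⟨by omega⟩
    obtain ⟨W, hW⟩ := exists_isLF F hD hB hdiam (l := 2 * m + 1) hl v
    exact ⟨S2II.Fr.p0 (⟨(v, W), hW⟩ : S2II.Fr e D (2 * m + 1)), rfl⟩
  have h1 := Q2.II_eq X v0 F hD hB hdiam hs (FE.FF_d F hD hB hdiam hl hJ hρ a)
    (FE.FF_deg F hD hB hdiam hl hJ hρ a) ⟨m + 1, by ring⟩ (by omega) (n := n + 1) (by omega) h0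
    b.toBasis hr hrad hDR (FE.ang_PsiE hJ.os a) (WQ.cut_rho hρ) (WQ.closedBall_sub hρ)
    (fun x hx => FE.FF_ef F hD hB hdiam hl hJ hρ a hx)
    (fun y hy => FE.B0_cc F hD hB hdiam hl hJ hρ a (hD.trans hDR) X v0 hy)
  have h2 := (FE.q_le hJ.os ha hm (Nat.succ_pos n) h0 b hr).1
  have h3 : (inst F hD hB hdiam hl hN hE hJ hρ ha hL g hg hg0 hg1 X v0 hr hDR b).I ((inst F hD hB hdiam hl hN hE hJ hρ ha hL g hg hg0 hg1 X v0 hr hDR b).B0 * ((inst F hD hB hdiam hl hN hE hJ hρ ha hL g hg hg0 hg1 X v0 hr hDR b).Fx ^ (n + 1) * (inst F hD hB hdiam hl hN hE hJ hρ ha hL g hg hg0 hg1 X v0 hr hDR b).Fb ^ n)) =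
      Q.qv volume b.toBasis r (FE.PsiE m a p Pi o) (n + 1 - 1) *
        Q.qv volume b.toBasis r (FE.PsiE m a p Pi o) (n + 1 - 1) := h1
  rw [h3, abs_mul, ← pow_two, mul_comm 2, pow_mul]
  exact pow_le_pow_left₀ (abs_nonneg _) h2 2

/-- the relation between the two closed forms -/
theorem inst_b1 (h1 : ∀ G : Form (dM E M), G.d = 0 → ∃ l : Form (dPr e D),
        J Lm hL.flow.map (2 * D) (Form.K (Form.pull g hg G) -
          Form.pull (Th F hD hB hdiam) (map_Th F hD hB hdiam) (Form.K (Form.pull g hg G))) =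
        (-1 : ℝ) • J (WR.R F hD hB hdiam) (isFlow_R F hD hB hdiam).map (2 * Real.pi)
          (Form.pull Pr.v map_v (WR.B0 F D G)) + l.d) :
    ∃ l : Form (dPr e D), (inst F hD hB hdiam hl hN hE hJ hρ ha hL g hg hg0 hg1 X v0 hr hDR b).b1 = (-1 : ℝ) • (inst F hD hB hdiam hl hN hE hJ hρ ha hL g hg hg0 hg1 X v0 hr hDR b).b0 + l.d :=
  h1 _ (FE.FF_d F hD hB hdiam hl hJ hρ a)

theorem kappa_eq (m : ℕ) (a : ℝ) : S2II.kappa m a = FE.kap m a := rfl

/-- the sphere bundle with its angular form -/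
theorem inst_ang [NeZero (2 * m + 1)] :
    (S2II.bun_SL F hD hB hdiam (l := 2 * m + 1) hl
      (S2II.orn_b0P F hD hB hdiam (two_le hN hE) hl hJ hρ ha) ⟨m, rfl⟩).Ang
        (S2II.bas (2 * m + 1)) ((2 * FE.kap m a)⁻¹ • b0P F hD hB hdiam
          (FE.FF F hD hB hdiam hl hJ hρ a)) 0 where
  d := by
    rw [Form.pull_zero', neg_zero, Form.d_smul,
      S2II.b0P_d F hD hB hdiam (FE.FF_d F hD hB hdiam hl hJ hρ a), smul_zero]
  one := by
    have h1 := S2II.SL_b0P F hD hB hdiam (two_le hN hE) hl hJ hρ ha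
    have h2 : (2 * FE.kap m a) ≠ 0 := mul_ne_zero two_ne_zero (FE.kap_pos m ha).ne'
    have h3 : S2II.SL F hD hB hdiam (l := 2 * m + 1) hl
        (S2II.orn_b0P F hD hB hdiam (two_le hN hE) hl hJ hρ ha) ⟨m, rfl⟩
        ((2 * FE.kap m a)⁻¹ • b0P F hD hB hdiam (FE.FF F hD hB hdiam hl hJ hρ a)) = 1 := by
      rw [map_smul, h1, kappa_eq, smul_smul, inv_mul_cancel₀ h2, one_smul]
    exact h3
  deg := Form.IsDeg.smul _ (S2II.b0P_isDeg F hD hB hdiam (l := 2 * m + 1) (by omega)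
    (S2II.isDeg_FF F hD hB hdiam hl hJ hρ a))
  dege := Form.IsDeg.zero _

end sys

end

end Vale.Agent.P231.L3
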