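import Vale.Agent.P231.L3.GQuad
import Vale.Agent.P231.S2T.Fin
import Vale.Agent.P231.S2T.T3
import Vale.Agent.P231.S2X.Test2
import Vale.Agent.P231.S2X.Qcm
import Vale.Agent.P231.X3.PForm
import Vale.Agent.P231.S2I.Fin

/-! P231, stage 2: the coefficient `c` of the square of `b₀` satisfies `|c| ≤ 1`. -/

set_option maxSynthPendingDepth 3
set_option linter.unusedSectionVars false
set_option linter.unusedVariables false

open Bundle Manifold Set Filter Module MeasureTheory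
open scoped ContDiff Manifold Topology ENNReal Real

namespace Vale.Agent.P231.S2X

/-- exchange of the two ends -/
theorem Val.swap {H : Type*} [CommRing H] [Algebra ℝ H] {n : ℕ} {κ : ℝ} {x1 x2 y z : H}
    {Φ : H →ₗ[ℝ] ℝ} (V : Val n κ x1 x2 y z Φ) : Val n (-κ) x2 x1 (-y) z Φ where
  p1 a b := by rw [mul_comm, V.p1]
  py a b := by rw [mul_neg, map_neg, mul_comm (x2 ^ a), V.py, neg_zero]
  pz a b := by rw [mul_comm (x2 ^ a), V.pz]
  pyy a b := by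
    rw [neg_sq, mul_comm (x2 ^ a), V.pyy]
    have e1 : (b + 1 = n ∧ a = n) ↔ (a = n ∧ b + 1 = n) := and_comm
    have e2 : (b = n ∧ a + 1 = n) ↔ (a + 1 = n ∧ b = n) := and_comm
    simp only [e1, e2]
    ring

end Vale.Agent.P231.S2X

namespace Vale.Agent.P231.L3

noncomputable section

open Vale.Agent.P234 Vale.Agent.P231 Vale.Agent.P231.Fm Vale.Agent.P231.W Vale.Agent.P231.WR
  Vale.Agent.P231.H766 Vale.Agent.P231.WG Vale.Agent.P231.S2II Vale.Agent.P231.WQ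
open Vale.Agent.P231.X3 Vale.Agent.P231.ChW

variable {E : Type*} [NormedAddCommGroup E] [NormedSpace ℝ E]
  {M : Type*} [MetricSpace M] [ChartedSpace E M]
  [RiemannianBundle (fun x : M => TangentSpace 𝓘(ℝ, E) x)]
  {e : ∀ x : M, TangentSpace 𝓘(ℝ, E) x → M}
  [FiniteDimensional ℝ E] [IsManifold 𝓘(ℝ, E) ∞ M]
  [IsContMDiffRiemannianBundle 𝓘(ℝ, E) ∞ E (fun x : M => TangentSpace 𝓘(ℝ, E) x)]
  [CompactSpace M] [ConnectedSpace M] [IsRiemannianManifold 𝓘(ℝ, E) M]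
  {D : ℝ} {n N : ℕ}

section three

variable {p : M}
  {Pi : TangentSpace 𝓘(ℝ, E) p → TangentSpace 𝓘(ℝ, E) p →L[ℝ] TangentSpace 𝓘(ℝ, E) p}
  {o : TangentSpace 𝓘(ℝ, E) p → Fm.Lam (TangentSpace 𝓘(ℝ, E) p)}
  {ρ : TangentSpace 𝓘(ℝ, E) p → ℝ} {r₀ : ℝ}

/-- invariance of the sum of the squares -/
theorem alg_inv {A : Type*} [CommRing A] [Algebra ℝ A] (f : A →ₐ[ℝ] A) {y z : A} (hy : f y = y)
    (hz : f z = -z) : f ((-y) ^ 2 + z ^ 2) = (-y) ^ 2 + z ^ 2 := by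
  rw [map_add, map_pow, map_pow, map_neg, hy, hz]
  ring

theorem alg_sq {A : Type*} [CommRing A] [Algebra ℝ A] {f : A →ₐ[ℝ] A} {z : A} (hz : f z = -z) :
    f z ^ 2 = z ^ 2 := by
  rw [hz, neg_sq]

theorem alg_sm {A : Type*} [CommRing A] [Algebra ℝ A] {y z u v : A} {c : ℝ}
    (h : (-y) ^ 2 + z ^ 2 = (4 * c / 2) • (u + v)) : y ^ 2 + z ^ 2 = (2 * c) • (v + u) := by
  rw [neg_sq, add_comm u v] at h
  rw [h]
  congr 1
  ring

/-- the classes of the plane -/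
theorem pcl_val {K : ℕ} {j : Pr e D → Matrix (Fin K) (Fin K) ℝ} (G : X3.Geo e D 3) (P : PF E M K)
    (J : Lp G P j) {z : Hb G.R G.map_R} (hz : (ib_Mm G P J).qc 1 ^ 2 = Cx.of (z ^ 2)) (i : ℕ) :
    qm G.R G.map_R (S2T.pcl G P (2 * i)) =
      2 * (qm G.R G.map_R (yB G P) ^ (2 * i) + z ^ (2 * i)) := by
  have h0 : Split G.R G.map_R (rM (tF P) (sm_tF G P)) (rM (pF P) (sm_pF G P))
      (cM (Lm P) (sm_Lm P)) (cM (Mm P j) (sm_Mm G P J)) (cM (Wf G P) (sm_Wf G P)) :=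
    (spl_F G P).split (fl_F G rfl P J) (sm_tF G P) (sm_pF G P) (sm_Lm P) (sm_Mm G P J)
    (sm_Wf G P)
  have h1 := h0.four
  have hy : h1.ibL.qc 1 ^ 2 = Cx.of (qm G.R G.map_R (yB G P) ^ 2) := by
    have h2 := qc_Lm G P
    rw [Cx.of_pow', ← h2]
  exact S2T.pcl_four G P h1 hy hz i

theorem alg_pcl {A : Type*} [CommRing A] {y z w : A} {i : ℕ}
    (h : w = 2 * (y ^ (2 * i) + z ^ (2 * i))) : w = 2 * ((-y) ^ (2 * i) + z ^ (2 * i)) := by
  rw [h, Even.neg_pow (even_two_mul i)]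

theorem alg_yz {A : Type*} [CommRing A] {y z u v : A} (h : y * z = u - v) :
    -y * z = v - u := by
  rw [neg_mul, h, neg_sub]

/-- **the bound of the coefficient** in terms of the rotation structure -/
theorem abs_c_geo (G : X3.Geo e D 3) (hE : finrank ℝ E = 4 * (n + 1)) (hn : 1 ≤ n)
    (hJ : FE.LineP e D p 1 Pi o) (hρ : WE.Rho e D p ρ r₀) {c : ℤ} {η : Form (dPr e D)}
    (hη : b0P G.F G.hD G.hB G.hdiam (S2T.F3 G hJ hρ 1) ^ 2 =
      (2 * (2 * FE.kap 1 1 * c)) • Form.pull Pr.v map_v (Form.pull foot map_foot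
        (S2T.F3 G hJ hρ 1)) + η.d) : |c| ≤ 1 := by
  borelize M
  obtain ⟨K, ⟨P⟩⟩ := X3.exists_pf (E := E) (M := M)
  have hnt : Nontrivial E := nontrivial_of_finrank_pos (R := ℝ) (by omega)
  obtain ⟨N, hN⟩ : ∃ N, finrank ℝ E = N + 1 := ⟨finrank ℝ E - 1, by omega⟩
  have hE' : N + 1 = (2 * 1 + 2) * (n + 1) := by omega
  have hb : S2II.Orn G.F G.hD G.hB G.hdiam (l := 3)
      (L3.b0P G.F G.hD G.hB G.hdiam (S2X.Om G hJ hρ 1)) :=
    S2II.orn_b0P G.F G.hD G.hB G.hdiam (by omega) G.hP hJ hρ one_ne_zero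
  have hκ0 : FE.kap 1 (1 : ℝ) ≠ 0 := (FE.kap_pos 1 one_ne_zero).ne'
  have hκv : FE.kap 1 (1 : ℝ) = 12 * Real.pi ^ 2 * 1 := by
    have h1 := S2I.kappa_one (1 : ℝ)
    rw [abs_one, one_mul] at h1
    have h2 : FE.kap 1 (1 : ℝ) = S2II.kappa 1 1 := rfl
    rw [h2, h1, mul_one]
  set κ : ℝ := FE.kap 1 (1 : ℝ) with hκ
  have SG : S2X.Geo G.isFlow_R κ (X3.nu e D P)
      (Form.pull Pr.v map_v (Form.pull (bar e D) (map_bar G.F D) (S2T.F3 G hJ hρ 1)))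
      (Form.pull Pr.v map_v (Form.pull foot map_foot (S2T.F3 G hJ hρ 1)))
      (Form.pull Pr.v map_v (B0 G.F D (S2T.F3 G hJ hρ 1))) :=
    geo_three G.F G.hD G.hB G.hdiam G.hP hJ hρ hκ0 (X3.nu_R G P) (X3.nu_sg P) rfl rfl rfl
  obtain ⟨I, NG⟩ := exists_gint G.F G.hD G.hB G.hdiam G.hP hN hE' hJ hρ (a := 1) one_ne_zero
    (ν := X3.nu e D P) (S2T.isDeg_nu P) rfl rfl rfl
  obtain ⟨c₂, c₃, hq⟩ := quad_three G.F G.hD G.hB G.hdiam G.hP hN hE' hJ hρ (a := 1) one_ne_zero hn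
    SG rfl rfl (c := (c : ℝ)) hη
  -- the classes
  set xf := S2T.xf G (S2T.O3_d G hJ hρ 1 κ) (S2T.O3_sg G hJ hρ 1 κ) with hxf
  set xb := S2T.xb G (S2T.O3_d G hJ hρ 1 κ) (S2T.O3_sg G hJ hρ 1 κ) with hxb
  have e1 : SG.x1 = xb := by
    change qm G.R G.map_R _ = qm G.R G.map_R _
    congr 1
    refine Subtype.ext ?_
    change κ⁻¹ • Form.pull Pr.v map_v (Form.pull (bar e D) (map_bar G.F D) (S2T.F3 G hJ hρ 1)) =
      Form.pull (fun q : Pr e D => bar e D q.v) G.map_bar (κ⁻¹ • S2T.F3 G hJ hρ 1)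
    rw [H584.pull_pull (k := fun q : Pr e D => bar e D q.v) map_v (map_bar G.F D) G.map_bar
      (fun _ => rfl)]
    exact (map_smul (Form.pullA (fun q : Pr e D => bar e D q.v) G.map_bar) κ⁻¹ _).symm
  have e2 : SG.x2 = xf := by
    change qm G.R G.map_R _ = qm G.R G.map_R _
    congr 1
    refine Subtype.ext ?_
    change κ⁻¹ • Form.pull Pr.v map_v (Form.pull foot map_foot (S2T.F3 G hJ hρ 1)) =
      Form.pull (fun q : Pr e D => foot q.v) G.map_foot (κ⁻¹ • S2T.F3 G hJ hρ 1)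
    rw [H584.pull_pull (k := fun q : Pr e D => foot q.v) map_v map_foot G.map_foot
      (fun _ => rfl)]
    exact (map_smul (Form.pullA (fun q : Pr e D => foot q.v) G.map_foot) κ⁻¹ _).symm
  have ey : SG.y = -qm G.R G.map_R (yB G P) := by
    rw [← map_neg]
    change qm G.R G.map_R _ = qm G.R G.map_R _
    congr 1
    refine Subtype.ext ?_
    change (2 * Real.pi)⁻¹ • (X3.nu e D P).d = -(-(1 / (2 * Real.pi)) • (X3.nu e D P).d)
    rw [neg_smul, neg_neg, one_div]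
  have ez : SG.z = qm G.R G.map_R (S2X.zB G hJ hρ 1) := by
    change qm G.R G.map_R _ = qm G.R G.map_R _
    congr 1
    refine Subtype.ext ?_
    change κ⁻¹ • L3.b0P G.F G.hD G.hB G.hdiam (S2T.F3 G hJ hρ 1) =
      (12 * Real.pi ^ 2 * 1)⁻¹ • L3.b0P G.F G.hD G.hB G.hdiam (S2T.F3 G hJ hρ 1)
    rw [hκv]
  set y := qm G.R G.map_R (yB G P) with hy
  set z := qm G.R G.map_R (S2X.zB G hJ hρ 1) with hz
  have hyz : y * z = xf - xb := by
    have h := SG.yz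
    rw [ey, ez, e1, e2, neg_mul] at h
    rw [← neg_sub xb xf, ← h, neg_neg]
  have hqz : (ib_Mm G P (S2X.lp P hb)).qc 1 = Cx.of z :=
    S2X.qc_Mm G P hJ hρ one_pos hb (H0_three G.F G.hD G.hB G.hdiam G.hP hN hE' hn hJ hρ)
      (H2_three G.F G.hD G.hB G.hdiam G.hP hN hE' hn hJ hρ one_ne_zero)
  have hqz2 : (ib_Mm G P (S2X.lp P hb)).qc 1 ^ 2 = Cx.of (z ^ 2) := by
    rw [hqz, Cx.of_pow']
  have hθy : hbPull G.map_Th G.Th_R y = y := hbPull_y G P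
  have hθz : hbPull G.map_Th G.Th_R z = -z := S2X.hbPull_z G hJ hρ 1
  have hθf : hbPull G.map_Th G.Th_R xf = xb := by
    rw [hxf, hxb, S2T.xf, S2T.xb, hbPull_qm]
    congr 1
    refine Subtype.ext ?_
    exact H584.pull_pull (k := fun q : Pr e D => bar e D q.v) G.map_Th G.map_foot G.map_bar
      (fun q => G.foot_Th q) _
  have hθb : hbPull G.map_Th G.Th_R xb = xf := by
    rw [hxf, hxb, S2T.xf, S2T.xb, hbPull_qm]
    congr 1
    refine Subtype.ext ?_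
    exact H584.pull_pull (k := fun q : Pr e D => foot q.v) G.map_Th G.map_bar G.map_foot
      (fun q => G.bar_Th q) _
  have hO4 : Form.IsDeg 4 (S2T.F3 G hJ hρ 1) := S2II.isDeg_FF G.F G.hD G.hB G.hdiam G.hP hJ hρ 1
  obtain ⟨pf, τ, hp1, hp2, hp3, hp4⟩ := X3.exists_p G rfl P (S2X.lp P hb) hqz2
  have hsq0 := SG.sq_val NG (by omega) hq (p := pf) (by
      rw [ey, ez, neg_sq]
      exact hp1) (fun i j hij => by
      rw [hp2]
      exact X3.p_mul_zero hE (by omega) (hO4.pull _ (map_bar G.F D)) (hO4.pull _ map_foot) hp4 hij)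
    (S := hbPull G.map_Th G.Th_R) (by rw [e1, e2, hθb]) (by rw [e1, e2, hθf])
    (by
      rw [ey, ez]
      exact alg_inv _ hθy hθz)
  have hsq1 := hsq0
  rw [e1, e2, ey, ez] at hsq1
  have hsq : y ^ 2 + z ^ 2 = (2 * (c : ℝ)) • (xf + xb) := alg_sm hsq1
  have hsq2 : SG.y ^ 2 + SG.z ^ 2 = (2 * (c : ℝ)) • (SG.x1 + SG.x2) := by
    rw [hsq0]
    congr 1
    ring
  obtain ⟨κ₀, hκ₀, V⟩ := SG.val NG (by omega) hsq2
  rw [e1, e2, ey, ez] at V
  have V' := V.swap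
  rw [neg_neg] at V'
  have eY : qm G.R G.map_R (-(yB G P)) = -y := map_neg _ _
  have ht : ∀ k, 1 ≤ k → k ≤ n + 1 → (ib_tF G P).qc (2 * k) =
      Cx.of (S2X.tau (n + 1) (c : ℝ) k • xf ^ k) := by
    intro k hk hkn
    refine S2T.qc_tau_FF G hE hJ hρ one_ne_zero (by omega) P hκ0 (Yb := -(yB G P))
      (Zb := S2X.zB G hJ hρ 1) ?_ ?_ ?_ ?_ hk hkn
    · change (12 * Real.pi ^ 2 * 1)⁻¹ • L3.b0P G.F G.hD G.hB G.hdiam (S2T.F3 G hJ hρ 1) = _
      rw [hκv]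
    · rw [eY]
      exact alg_yz hyz
    · rw [eY, neg_sq]
      exact hsq
    · intro i hi
      rw [eY]
      exact alg_pcl (pcl_val G P (S2X.lp P hb) hqz2 i)
  exact X3.abs_le_one G rfl P (S2X.lp P hb) (N := n + 1) (by omega) hE (c := c) hqz2
    (alg_sq hθz) ht hθf hyz hsq (neg_ne_zero.2 hκ₀) V'

/-- **the bound of the coefficient** -/
theorem abs_c_le (F : Facts e) (hD : 0 < D) (hB : InjGE e D) (hdiam : ∀ p q : M, dist p q ≤ D)
    (hl : ∀ x y : M, dist x y = D → finrank ℝ (H775.Pl e D x y) = 2 * 1 + 2)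
    (hN : finrank ℝ E = N + 1) (hE : N + 1 = (2 * 1 + 2) * (n + 1)) (hn : 1 ≤ n)
    (hJ : FE.LineP e D p 1 Pi o) (hρ : WE.Rho e D p ρ r₀) {c : ℤ} {η : Form (dPr e D)}
    (hη : b0P F hD hB hdiam (FE.FF F hD hB hdiam hl hJ hρ 1) ^ 2 =
      (2 * (2 * FE.kap 1 1 * c)) • Form.pull Pr.v map_v (Form.pull foot map_foot
        (FE.FF F hD hB hdiam hl hJ hρ 1)) + η.d) : |c| ≤ 1 :=
  abs_c_geo (G := ⟨F, hD, hB, hdiam, hl⟩) (by omega) hn hJ hρ hη

end three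

end

end Vale.Agent.P231.L3
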