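import Vale.Agent.P231.L.Top
import Vale.Agent.P231.H584.Sys
import Vale.Agent.P231.A3.Model
import Vale.Agent.P231.H584.Num7

/-! P231, stages 2 and 3, block L: from the bound of the contact volume to the volume inequality. -/

set_option maxSynthPendingDepth 3
set_option linter.unusedSectionVars false
set_option linter.unusedVariables false

open Bundle Manifold Set Filter Module MeasureTheory
open scoped ContDiff Manifold Topology ENNReal Real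

namespace Vale.Agent.P231.L3

noncomputable section

open Vale.Agent.P234 Vale.Agent.P231 Vale.Agent.P231.H703 Vale.Agent.P231.Fm Vale.Agent.P231.W
  H584

/-- from the contact volume to the volume -/
theorem le_ofReal_of {N l : ℕ} {D C v w : ℝ} {V : ENNReal} (hD : 0 < D) (hV : V ≠ ⊤)
    (hv : V.toReal = v)
    (hw : |w| = (N.factorial : ℝ) * (2 * √Real.pi ^ (N + 1) / Real.Gamma (((N : ℝ) + 1) / 2)) * v)
    (hb : |w| ≤ C * (2 * D) ^ (N + 1)) (hC : 0 ≤ C)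
    (hm : C * (2 * D) ^ (N + 1) /
      ((N.factorial : ℝ) * (2 * √Real.pi ^ (N + 1) / Real.Gamma (((N : ℝ) + 1) / 2))) =
        Blaschke.modelVolume N l D) :
    V ≤ ENNReal.ofReal (Blaschke.modelVolume N l D) := by
  have hg : 0 < Real.Gamma (((N : ℝ) + 1) / 2) := Real.Gamma_pos_of_pos (by positivity)
  have hpi := Real.pi_pos
  have hs : 0 < (N.factorial : ℝ) *
      (2 * √Real.pi ^ (N + 1) / Real.Gamma (((N : ℝ) + 1) / 2)) := by
    have : (0 : ℝ) < (N.factorial : ℝ) := by exact_mod_cast Nat.factorial_pos N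
    positivity
  have h1 : v ≤ Blaschke.modelVolume N l D := by
    rw [← hm, le_div_iff₀ hs]
    calc v * _ = (N.factorial : ℝ) *
          (2 * √Real.pi ^ (N + 1) / Real.Gamma (((N : ℝ) + 1) / 2)) * v := by ring
      _ ≤ _ := by rw [← hw]; exact hb
  have h0 : 0 ≤ Blaschke.modelVolume N l D := by
    rw [← hm]
    positivity
  rw [ENNReal.le_ofReal_iff_toReal_le hV h0, hv]
  exact h1

variable {B U : Type*} {M : Type*} {dB : Dif B} {dU : Dif U} {dM : Dif M}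

/-- the volume bound, quaternionic case, `dim M = 4 (n + 1)` -/
theorem bound_three {n N : ℕ} (hN : N = 4 * n + 3) {D c : ℝ} (S : Sys dB dU dM n D c)
    (hαN : S.α.d ^ (4 * n + 4) = 0) {V : ENNReal} (hV : V ≠ ⊤)
    (hvol : |S.I (S.α * S.α.d ^ N)| = (N.factorial : ℝ) *
      (2 * √Real.pi ^ (N + 1) / Real.Gamma (((N : ℝ) + 1) / 2)) * V.toReal)
    {a μ : ℝ} {ρ : Form dB} (hρ : Basic S.φ S.hφ.map ρ)
    (hrel : S.b1 ^ 2 = a • S.e ^ 2 + μ • (S.G1 + S.G2) + ρ.d)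
    {ε : ℝ} (hε : ε ≠ 0) {l : Form dB} (hl : S.b1 = ε • S.b0 + l.d)
    {κ : ℝ} (hκ : 0 < κ) (ha : κ ^ 2 ≤ |a|) (hμ : |μ| ≤ 2 * κ)
    (hq : |S.I (S.B0 * (S.Fx ^ (n + 1) * S.Fb ^ n))| ≤ κ ^ (2 * (n + 1))) :
    V ≤ ENNReal.ofReal (Blaschke.modelVolume N 3 D) := by
  subst hN
  have h1 := S.bound4 hρ hrel hαN hε hl hκ ha hμ hq
  have e1 : 4 * n + 3 + 1 = 4 * (n + 1) := by ring
  refine le_ofReal_of (C := ((4 * (n + 1)).choose (2 * (n + 1)) : ℝ) / (2 * (n + 1 : ℕ) + 1))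
    S.hD hV rfl hvol (by rw [e1]; exact h1) (by positivity) ?_
  have h2 := A3.number3 (n := n + 1) (by omega) S.hD
  have e2 : 4 * (n + 1) - 1 = 4 * n + 3 := by omega
  have e3 : (((4 * n + 3 : ℕ) : ℝ) + 1) / 2 = ((2 * (n + 1) : ℕ) : ℝ) := by push_cast; ring
  rw [e2] at h2
  rw [← h2, e1, e3]

/-- the volume bound, Cayley plane case -/
theorem bound_seven {D c : ℝ} (S : Sys dB dU dM 1 D c)
    (hαN : S.α.d ^ 16 = 0) {V : ENNReal} (hV : V ≠ ⊤)
    (hvol : |S.I (S.α * S.α.d ^ 15)| = (Nat.factorial 15 : ℝ) *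
      (2 * √Real.pi ^ (15 + 1) / Real.Gamma (((15 : ℕ) + 1 : ℝ) / 2)) * V.toReal)
    {a μ : ℝ} {ρ : Form dB} (hρ : Basic S.φ S.hφ.map ρ)
    (hrel : S.b1 ^ 2 = a • S.e ^ 6 + μ • (S.e ^ 2 * (S.G1 + S.G2)) + ρ.d)
    {ε : ℝ} (hε : ε ≠ 0) {l : Form dB} (hl : S.b1 = ε • S.b0 + l.d)
    {κ : ℝ} (hκ : 0 < κ) (ha : κ ^ 2 ≤ |a|) (hμ : |μ| ≤ 6 * κ)
    (hq : |S.I (S.B0 * (S.Fx ^ 2 * S.Fb))| ≤ κ ^ 4) :
    V ≤ ENNReal.ofReal (Blaschke.modelVolume 15 7 D) := by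
  have h1 := S.bound8 hρ hrel hαN hε hl hκ ha hμ hq
  refine le_ofReal_of (N := 15) (C := 78) S.hD hV rfl (by simpa using hvol) h1 (by norm_num) ?_
  have h2 := number7 S.hD
  have e3 : (((15 : ℕ) : ℝ) + 1) / 2 = ((8 : ℕ) : ℝ) := by norm_num
  rw [e3]
  exact h2

end

end Vale.Agent.P231.L3
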