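import Vale.Agent.P231.L3.RelR
import Vale.Agent.P231.S2I.Fin
import Vale.Agent.P231.H649.CZ7
import Vale.Agent.P231.L.Top
import Vale.Agent.P231.CoZ.Dim

/-! P231, stage 2, block L: the volume inequality from the two facts on the coefficient `c`,
multiplicity three. -/

set_option maxSynthPendingDepth 3
set_option linter.unusedSectionVars false
set_option linter.unusedVariables false

open Bundle Manifold Set Filter Module MeasureTheory
open scoped ContDiff Manifold Topology ENNReal Real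

namespace Vale.Agent.P231.L3

noncomputable section

open Vale.Agent.P234 Vale.Agent.P231 Vale.Agent.P231.Fm Vale.Agent.P231.W Vale.Agent.P231.WR
  Vale.Agent.P231.H766 Vale.Agent.P231.WG Vale.Agent.P231.S2II Vale.Agent.P231.WQ

variable {E : Type*} [NormedAddCommGroup E] [NormedSpace ℝ E]
  {M : Type*} [MetricSpace M] [ChartedSpace E M]
  [RiemannianBundle (fun x : M => TangentSpace 𝓘(ℝ, E) x)]
  {e : ∀ x : M, TangentSpace 𝓘(ℝ, E) x → M}
  [FiniteDimensional ℝ E] [IsManifold 𝓘(ℝ, E) ∞ M]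
  [IsContMDiffRiemannianBundle 𝓘(ℝ, E) ∞ E (fun x : M => TangentSpace 𝓘(ℝ, E) x)]
  [CompactSpace M] [ConnectedSpace M] [IsRiemannianManifold 𝓘(ℝ, E) M]
  (F : Facts e) {D : ℝ} (hD : 0 < D) (hB : InjGE e D) (hdiam : ∀ p q : M, dist p q ≤ D)
  {n N : ℕ}

section three

variable (hl : ∀ x y : M, dist x y = D → finrank ℝ (H775.Pl e D x y) = 2 * 1 + 2)
  {p : M}
  {Pi : TangentSpace 𝓘(ℝ, E) p → TangentSpace 𝓘(ℝ, E) p →L[ℝ] TangentSpace 𝓘(ℝ, E) p}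
  {o : TangentSpace 𝓘(ℝ, E) p → Fm.Lam (TangentSpace 𝓘(ℝ, E) p)}
  {ρ : TangentSpace 𝓘(ℝ, E) p → ℝ} {r₀ : ℝ}
  (hJ : FE.LineP e D p 1 Pi o) (hρ : WE.Rho e D p ρ r₀) {a : ℝ} (ha : a ≠ 0)
  {T : UT E M → ℝ → E →ₗ[ℝ] E} {Lm : Pr e D × ℝ → Pr e D} {Y : Pr e D → E} {ε₀ : ℝ}

include ha in
/-- the estimate of the coefficients from the two facts on `c` -/
theorem coef_three (hdim : 5 < finrank ℝ E) (hT : S2I3.LT F hD hB hdiam T)
    (hw : ∀ b t, (vec' (Lm (b, t)).w : E) =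
      (nm (gm e (b.v, t)) (T b.v t (vec' b.w)))⁻¹ • T b.v t (vec' b.w))
    (hL : PushL F hD hB hdiam Lm Y ε₀)
    (hrev : ∀ b t, Lm (S2N.rev F hD hB hdiam b, t) = S2N.rev F hD hB hdiam (Lm (b, -t)))
    (g : Pr e D × ℝ → M) (hg : ((dPr e D).prod (Dif.lin ℝ)).Map (dM E M) g)
    (hg0 : ∀ b, g (b, 0) = foot b.v) (hg1 : ∀ b t, g (Lm (b, t), 1) = g (b, 1))
    {ℓ : Form (dPr e D)} (hℓ : b1P F hD hB hdiam hL hg (FE.FF F hD hB hdiam hl hJ hρ a) =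
          (-1 : ℝ) • b0P F hD hB hdiam (FE.FF F hD hB hdiam hl hJ hρ a) + ℓ.d)
    {a' μ : ℝ} {σ : Form (dPr e D)} (hσ : Basic Lm hL.flow.map σ)
    (hrel : b1P F hD hB hdiam hL hg (FE.FF F hD hB hdiam hl hJ hρ a) ^ 2 =
          a' • eP e D ^ 2 + μ • GsP F hD hB hdiam hg (FE.FF F hD hB hdiam hl hJ hρ a) + σ.d)
    (ha' : a' ≠ 0) {c : ℤ} (hμ : μ = 2 * FE.kap 1 a * c) (hc : |c| ≤ 1) :
    FE.kap 1 a ^ 2 ≤ |a'| ∧ |μ| ≤ 2 * FE.kap 1 a := by
  have hk := FE.kap_pos 1 ha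
  refine ⟨?_, ?_⟩
  · obtain ⟨H, hH⟩ := S2I.int_a F hD hB hdiam hdim hl hJ hρ ha hT hw hL hrev hg hg0 hg1
      (b1 := b1P F hD hB hdiam hL hg (FE.FF F hD hB hdiam hl hJ hρ a)) rfl hℓ hσ hrel c hμ
    have hH' : a' = FE.kap 1 a ^ 2 * H := hH
    have hH0 : H ≠ 0 := by
      rintro rfl
      exact ha' (by rw [hH']; simp)
    have h1 : (1 : ℝ) ≤ |(H : ℝ)| := by
      have := Int.one_le_abs hH0
      exact_mod_cast this
    rw [hH', abs_mul, abs_of_nonneg (sq_nonneg _)]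
    nlinarith [sq_nonneg (FE.kap 1 a)]
  · have h1 : |(c : ℝ)| ≤ 1 := by exact_mod_cast hc
    rw [hμ, abs_mul, abs_of_pos (by linarith)]
    nlinarith

variable [MeasurableSpace M] [BorelSpace M] (hN : finrank ℝ E = N + 1)
  (hE : N + 1 = (2 * 1 + 2) * (n + 1)) (hn : 1 ≤ n)
  (hL : PushL F hD hB hdiam Lm Y ε₀)
  (g : Pr e D × ℝ → M) (hg : ((dPr e D).prod (Dif.lin ℝ)).Map (dM E M) g)
  (hg0 : ∀ b, g (b, 0) = foot b.v) (hg1 : ∀ b t, g (Lm (b, t), 1) = g (b, 1))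

include hN hE hn ha hg0 hg1 in
/-- the coefficient `c` is an integer -/
theorem c_int_three {ℓ : Form (dPr e D)} (hℓ : b1P F hD hB hdiam hL hg
      (FE.FF F hD hB hdiam hl hJ hρ a) = (-1 : ℝ) • b0P F hD hB hdiam
      (FE.FF F hD hB hdiam hl hJ hρ a) + ℓ.d)
    {a' μ : ℝ} {σ : Form (dPr e D)}
    (hrel : b1P F hD hB hdiam hL hg (FE.FF F hD hB hdiam hl hJ hρ a) ^ 2 = a' • eP e D ^ 2 +
        μ • GsP F hD hB hdiam hg (FE.FF F hD hB hdiam hl hJ hρ a) + σ.d) :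
    ∃ c : ℤ, μ = 2 * FE.kap 1 a * c := by
  obtain ⟨η, hη⟩ := b0P_sq F hD hB hdiam hl hN hE hJ hρ ha hL g hg hg0 hg1 hℓ hrel
  set Om := FE.FF F hD hB hdiam hl hJ hρ a with hOm
  have hk : FE.kap 1 a ≠ 0 := (FE.kap_pos 1 ha).ne'
  set κ := FE.kap 1 a with hκ
  have hOd : Om.d = 0 := FE.FF_d F hD hB hdiam hl hJ hρ a
  have h2 : Form.pull Pr.v map_v (Form.pull foot map_foot Om) =
      Form.pull (fun q : Pr e D => foot q.v) H649.map_fv Om :=
    H584.pull_pull (k := fun q : Pr e D => foot q.v) map_v map_foot H649.map_fv (fun q => rfl) Om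
  have h1 : Form.pull Pr.v map_v (Form.pull (bar e D) (map_bar F D) Om) =
      Form.pull (fun q : Pr e D => bar e D q.v) (H649.map_bv F) Om :=
    H584.pull_pull (k := fun q : Pr e D => bar e D q.v) map_v (map_bar F D) (H649.map_bv F)
      (fun q => rfl) Om
  have h3 : (Form.pull Pr.v map_v (WR.B0 F D Om)).d =
      Form.pull (fun q : Pr e D => bar e D q.v) (H649.map_bv F) Om -
        Form.pull (fun q : Pr e D => foot q.v) H649.map_fv Om := by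
    rw [← Form.pull_d, S2II.B0_d F hOd, S2I.pull_sub', h1, h2]
  obtain ⟨m, hm⟩ := H649.c_int_FF F hD hB hdiam hl (by omega) hJ hρ ha (κ := κ)
    (abs_of_pos (FE.kap_pos 1 ha)) (c := μ / (2 * κ))
    (Λ := (κ⁻¹ * κ⁻¹) • η - (μ * κ⁻¹ * κ⁻¹) • Form.pull Pr.v map_v (WR.B0 F D Om)) (by
      rw [smul_mul_smul_comm, ← sq (b0P F hD hB hdiam Om), hη, h2, Form.d_sub, Form.d_smul, Form.d_smul, h3]
      have h4 : 2 * (μ / (2 * κ)) = μ * κ⁻¹ := by field_simp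
      rw [h4]
      module)
  refine ⟨m, ?_⟩
  rw [← hm]
  field_simp

include F hN hE hn hl in
/-- **the volume inequality, quaternionic case**, from the bound of the coefficient `c` -/
theorem volume_three_of_c (p : M)
    (hC : ∀ {o : TangentSpace 𝓘(ℝ, E) p → Fm.Lam (TangentSpace 𝓘(ℝ, E) p)}
      {ρ : TangentSpace 𝓘(ℝ, E) p → ℝ} {r₀ : ℝ}
      (hJ : FE.LineP e D p 1 (FE.PiP e D p) o) (hρ : WE.Rho e D p ρ r₀) {c : ℤ}
      {η : Form (dPr e D)} (_ : b0P F hD hB hdiam (FE.FF F hD hB hdiam hl hJ hρ 1) ^ 2 =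
        (2 * (2 * FE.kap 1 1 * c)) • Form.pull Pr.v map_v (Form.pull foot map_foot
          (FE.FF F hD hB hdiam hl hJ hρ 1)) + η.d), |c| ≤ 1) :
    Blaschke.riemannianVolume (N + 1) M univ ≤
      ENNReal.ofReal (Blaschke.modelVolume N 3 D) := by
  refine volume_three F hD hB hdiam hl hN hE hn p ?_
  intro o ρ r₀ hJ hρ T Lm Y ε₀ hT hw hL hrev g hg hg0 hg1 ℓ hℓ a' μ σ hσ hrel ha'
  obtain ⟨c, hc⟩ := c_int_three F hD hB hdiam hl hJ hρ one_ne_zero hN hE hn hL g hg hg0 hg1 hℓ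
    hrel
  obtain ⟨η, hη⟩ := b0P_sq F hD hB hdiam hl hN hE hJ hρ one_ne_zero hL g hg hg0 hg1 hℓ hrel
  rw [hc] at hη
  exact coef_three F hD hB hdiam hl hJ hρ one_ne_zero (by omega) hT hw hL hrev g hg hg0 hg1 hℓ hσ
    hrel ha' hc (hC hJ hρ hη)

end three

section main

variable [MeasurableSpace M] [BorelSpace M]

/-- **Main theorem for cut multiplicity three**, from the bound of the coefficient `c`. -/
theorem main_three_of (he : IsExp e) (hinj : Blaschke.InjGeDiam e) (hdim : 5 ≤ finrank ℝ E)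
    (hl : IsLeast {k | Blaschke.MultLE e k} 3)
    (hC : ∀ (F : Facts e) {D : ℝ} (hD : 0 < D) (hB : InjGE e D)
      (hdiam : ∀ p q : M, dist p q ≤ D)
      (hl : ∀ x y : M, dist x y = D → finrank ℝ (H775.Pl e D x y) = 2 * 1 + 2) {n N : ℕ}
      (_ : finrank ℝ E = N + 1) (_ : N + 1 = (2 * 1 + 2) * (n + 1)) (_ : 1 ≤ n) {p : M}
      {o : TangentSpace 𝓘(ℝ, E) p → Fm.Lam (TangentSpace 𝓘(ℝ, E) p)}
      {ρ : TangentSpace 𝓘(ℝ, E) p → ℝ} {r₀ : ℝ}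
      (hJ : FE.LineP e D p 1 (FE.PiP e D p) o) (hρ : WE.Rho e D p ρ r₀) {c : ℤ}
      {η : Form (dPr e D)} (_ : b0P F hD hB hdiam (FE.FF F hD hB hdiam hl hJ hρ 1) ^ 2 =
        (2 * (2 * FE.kap 1 1 * c)) • Form.pull Pr.v map_v (Form.pull foot map_foot
          (FE.FF F hD hB hdiam hl hJ hρ 1)) + η.d), |c| ≤ 1) :
    Blaschke.GeodesicSymmetric e ∧ Blaschke.TwoPointHomogeneous M := by
  obtain ⟨N, hN⟩ : ∃ N, finrank ℝ E = N + 1 := ⟨finrank ℝ E - 1, by omega⟩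
  refine L.hand_of_volume he hinj hN hl fun Fa D hD hB hdiam _ hK hP => ?_
  obtain ⟨k, hk⟩ := CoZ.dvd_finrank Fa hD hB hdiam (n := 1) hP (by omega)
  obtain ⟨n, rfl⟩ : ∃ n, k = n + 1 := ⟨k - 1, by omega⟩
  obtain ⟨p⟩ : Nonempty M := inferInstance
  refine volume_three_of_c Fa hD hB hdiam hP hN (n := n) (by omega) (by omega) p ?_
  intro o ρ r₀ hJ hρ c η h
  exact hC Fa hD hB hdiam hP hN (n := n) (by omega) (by omega) hJ hρ h

end main

end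

end Vale.Agent.P231.L3
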