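import Vale.Agent.P231.S2X.Sq
import Vale.Agent.P231.H584.Quad

/-!
# P231, stage 2, S2-X: the relation `y² + z² = 2 c (x₁ + x₂)` with the coefficient of the square of
`b₀`
-/

set_option linter.unusedSectionVars false
set_option linter.unusedVariables false

open Set Module Filter Topology
open scoped ContDiff

namespace Vale.Agent.P231.S2X

open Fm W H584

noncomputable section

variable {X : Type*} {D : Dif X} {T : ℝ} {Φ : X × ℝ → X} {h : IsFlow D T Φ} {κ : ℝ}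
  {ν F1 F2 B : Form D} (G : Geo h κ ν F1 F2 B) {n : ℕ} {I : Form D →ₗ[ℝ] ℝ}
  (N : GInt h n ν F1 F2 B I)

theorem quad_alg {A : Type*} [Ring A] [Algebra ℝ A] {b f y d1 d2 : A} {κ c c2 c3 : ℝ}
    (hκ : κ ≠ 0) (h : b ^ 2 = (2 * (2 * κ * c)) • f + y * (c2 • b + y * (c3 • 1) + d2) + d1) :
    (κ⁻¹ • b) ^ 2 = (4 * c) • (κ⁻¹ • f) + (κ⁻¹ * c2) • (y * κ⁻¹ • b) +
      (κ⁻¹ * κ⁻¹ * c3) • y ^ 2 + (κ⁻¹ * κ⁻¹) • (y * d2 + d1) := by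
  rw [smul_pow, h]
  simp only [mul_add, mul_smul_comm, mul_one, smul_add, smul_smul, ← sq y]
  have e2 : κ⁻¹ ^ 2 * (2 * (2 * κ * c)) = 4 * c * κ⁻¹ := by
    field_simp
    ring
  have e3 : κ⁻¹ ^ 2 = κ⁻¹ * κ⁻¹ := sq _
  have e4 : κ⁻¹ * c2 * κ⁻¹ = κ⁻¹ * κ⁻¹ * c2 := by ring
  rw [e2, e3, e4]
  abel

/-- **the square of `z`** -/
theorem Geo.quad (gB : Form.IsDeg 3 B) (g2 : Form.IsDeg 4 F2)
    (H0 : ∀ w : Form D, Form.IsDeg 0 w → w.d = 0 → ∃ r : ℝ, w = r • 1)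
    (H2 : ∀ w : Form D, Form.IsDeg 2 w → w.d = 0 → ∃ (r : ℝ) (η : Form D),
      w = r • J Φ h.map T B + η.d)
    {c : ℝ} {η : Form D} (hsq : J Φ h.map T B ^ 2 = (2 * (2 * κ * c)) • F2 + η.d) :
    ∃ c₂ c₃ : ℝ, G.z ^ 2 = (4 * c) • G.x2 + c₂ • (G.y * G.z) + c₃ • G.y ^ 2 := by
  have gJ : Form.IsDeg 2 (J Φ h.map T B) := by
    rw [J_def, KT]
    exact ((gB.pull _ h.map).pull _ (map_scale T)).K
  have hJb : Basic Φ h.map (J Φ h.map T B) := J_basic h B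
  obtain ⟨w1, hw1, hw1b, hw1c, u1, hu1, h1⟩ := H584.step h G.hT G.ν1 G.νo (k := 2)
    (w := J Φ h.map T B ^ 2) (x := F2) (gJ.pow 2) (Basic.pow hJb 2) g2 G.b2 hsq
  obtain ⟨c2, κ2, h2⟩ := H2 w1 hw1 hw1c
  obtain ⟨w2, hw2, hw2b, hw2c, u2, hu2, h3⟩ := H584.step h G.hT G.ν1 G.νo (k := 0) hw1 hw1b gJ hJb
    h2
  obtain ⟨c3, rfl⟩ := H0 w2 hw2 hw2c
  set y : Form D := T⁻¹ • ν.d with hy
  have hyb : Basic Φ h.map y := Basic.smul _ G.νb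
  have hyd : y.d = 0 := by rw [hy, Form.d_smul, Form.d_d, smul_zero]
  have hye : y.sg = y := by rw [hy, Form.sg_smul, G.νe]
  have hκ : κ ≠ 0 := G.hκ
  refine ⟨κ⁻¹ * c2, κ⁻¹ * κ⁻¹ * c3, ?_⟩
  have key : ((G.bz ^ 2 : Bas Φ h.map) : Form D) =
      (((4 * c) • G.bx2 + (κ⁻¹ * c2) • (G.by_ * G.bz) + (κ⁻¹ * κ⁻¹ * c3) • G.by_ ^ 2 :
        Bas Φ h.map) : Form D) + ((κ⁻¹ * κ⁻¹) • (y * u2 + u1)).d := by
    change (κ⁻¹ • J Φ h.map T B) ^ 2 = (4 * c) • (κ⁻¹ • F2) +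
      (κ⁻¹ * c2) • (y * κ⁻¹ • J Φ h.map T B) + (κ⁻¹ * κ⁻¹ * c3) • y ^ 2 + _
    have e1 : (y * u2).d = y * u2.d := by
      rw [Form.d_mul, hyd, zero_mul, zero_add, hye]
    rw [Form.d_smul, Form.d_add, e1]
    exact quad_alg hκ (by rw [h1, h3])
  have hb : Basic Φ h.map ((κ⁻¹ * κ⁻¹) • (y * u2 + u1)) :=
    Basic.smul _ (Basic.add (Basic.mul hyb hu2) hu1)
  exact eq_quot Φ h.map hb key

include N in
/-- **the relation `y² + z² = 2 c (x₁ + x₂)`** -/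
theorem Geo.sq_val (hn : 1 ≤ n) {c₁ c₂ c₃ : ℝ}
    (hq : G.z ^ 2 = c₁ • G.x2 + c₂ • (G.y * G.z) + c₃ • G.y ^ 2) {p : Bas Φ h.map}
    (hp : Ideal.Quotient.mk (Exa Φ h.map) p = G.y ^ 2 + G.z ^ 2)
    (hp0 : ∀ a b, a + b + 1 = 2 * n → F1 ^ a * F2 ^ b * p.1 = 0)
    {S : HH' Φ h.map →ₐ[ℝ] HH' Φ h.map} (S1 : S G.x1 = G.x2) (S2 : S G.x2 = G.x1)
    (Sp : S (G.y ^ 2 + G.z ^ 2) = G.y ^ 2 + G.z ^ 2) :
    G.y ^ 2 + G.z ^ 2 = (c₁ / 2) • (G.x1 + G.x2) := by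
  obtain ⟨m, rfl⟩ : ∃ m, n = m + 1 := ⟨n - 1, by omega⟩
  set t : ℝ := I (B * (J Φ h.map T B * (F1 ^ m * F2 ^ (m + 1)))) with ht
  have ht0 : t ≠ 0 := by
    have := N.nz
    rwa [Nat.add_sub_cancel] at this
  set q : ℝ := (κ⁻¹) ^ m * (κ⁻¹) ^ (m + 1) * (κ⁻¹ * κ⁻¹ * (T * t)) with hqd
  have hq0 : q ≠ 0 := by
    have h1 : κ⁻¹ ≠ 0 := inv_ne_zero G.hκ
    exact mul_ne_zero (mul_ne_zero (pow_ne_zero _ h1) (pow_ne_zero _ h1))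
      (mul_ne_zero (mul_ne_zero h1 h1) (mul_ne_zero G.hT ht0))
  -- values
  have z1 : G.P N (G.x1 ^ m * G.x2 ^ (m + 1) * G.z ^ 2) = q := G.P_zz N m (m + 1)
  have z2 : G.P N (G.x1 ^ (m + 1) * G.x2 ^ m * G.z ^ 2) = -q := by
    have h1 := G.anti N hn
    rw [Nat.add_sub_cancel] at h1
    rw [G.P_zz N (m + 1) m, h1, hqd, ht]
    ring
  have hs : ∀ a b, a + b + 1 = 2 * (m + 1) →
      G.P N (G.x1 ^ a * G.x2 ^ b * (G.y ^ 2 + G.z ^ 2)) = 0 := by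
    intro a b hab
    rw [← hp]
    exact G.P_mono_cls N a b p (hp0 a b hab)
  have y1 : G.P N (G.x1 ^ m * G.x2 ^ (m + 1) * G.y ^ 2) = -q := by
    have h1 := hs m (m + 1) (by ring)
    rw [mul_add, map_add, z1] at h1
    linarith
  have y2 : G.P N (G.x1 ^ (m + 1) * G.x2 ^ m * G.y ^ 2) = q := by
    have h1 := hs (m + 1) m (by ring)
    rw [mul_add, map_add, z2] at h1
    linarith
  have t1 : G.P N (G.x1 ^ m * G.x2 ^ (m + 1) * G.x2) = 0 := by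
    have h1 := G.P_top N m (m + 2) (by ring)
    rwa [show G.x1 ^ m * G.x2 ^ (m + 1) * G.x2 = G.x1 ^ m * G.x2 ^ (m + 2) by ring]
  have t2 : G.P N (G.x1 ^ m * G.x2 ^ (m + 1) * G.x1) = 0 := by
    have h1 := G.P_top N (m + 1) (m + 1) (by ring)
    rwa [show G.x1 ^ m * G.x2 ^ (m + 1) * G.x1 = G.x1 ^ (m + 1) * G.x2 ^ (m + 1) by ring]
  -- `c₃ = -1`
  have hq' : G.y ^ 2 + G.z ^ 2 = c₁ • G.x2 + c₂ • (G.x1 - G.x2) + (c₃ + 1) • G.y ^ 2 := by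
    rw [hq, G.yz]
    module
  have hc3 : c₃ + 1 = 0 := by
    have h1 := hs m (m + 1) (by ring)
    rw [hq', mul_add, mul_add, mul_smul_comm, mul_smul_comm, mul_smul_comm, mul_sub, map_add,
      map_add, map_smul, map_smul, map_smul, map_sub, t1, t2, y1] at h1
    simp only [smul_eq_mul, sub_zero, mul_zero, zero_add] at h1
    exact (mul_eq_zero.1 h1).resolve_right (neg_ne_zero.2 hq0)
  rw [hc3, zero_smul, add_zero] at hq'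
  -- the symmetry
  have h2 : (c₁ - 2 * c₂) • (G.x1 - G.x2) = 0 := by
    have h3 := congrArg S hq'
    rw [Sp, map_add, map_smul, map_smul, map_sub, S1, S2, hq'] at h3
    have h4 : (c₁ - 2 * c₂) • (G.x1 - G.x2) = (c₁ • G.x1 + c₂ • (G.x2 - G.x1)) -
        (c₁ • G.x2 + c₂ • (G.x1 - G.x2)) := by module
    rw [h4, ← h3, sub_self]
  have h5 : c₁ - 2 * c₂ = 0 := by
    have h6 := congrArg (fun a => G.P N (G.x1 ^ m * G.x2 ^ m * G.y ^ 2 * a)) h2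
    beta_reduce at h6
    have h7 : G.x1 ^ m * G.x2 ^ m * G.y ^ 2 * ((c₁ - 2 * c₂) • (G.x1 - G.x2)) =
        (c₁ - 2 * c₂) • (G.x1 ^ (m + 1) * G.x2 ^ m * G.y ^ 2 -
          G.x1 ^ m * G.x2 ^ (m + 1) * G.y ^ 2) := by
      rw [mul_smul_comm]
      congr 1
      ring
    rw [h7, map_smul, map_sub, y1, y2, mul_zero, map_zero, smul_eq_mul, sub_neg_eq_add] at h6
    refine (mul_eq_zero.1 h6).resolve_right ?_
    intro h8
    apply hq0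
    linarith
  have h8 : c₂ = c₁ / 2 := by linarith
  rw [hq', h8]
  module

end

end Vale.Agent.P231.S2X
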