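import Vale.Agent.P231.L3.Three

/-! P231, stage 2, block L: the cohomology of the space of pairs in degrees 0 and 2, and the square
of `b₀`, in the form used for the flow of rotations. -/

set_option maxSynthPendingDepth 3
set_option linter.unusedSectionVars false
set_option linter.unusedVariables false

open Bundle Manifold Set Filter Module MeasureTheory
open scoped ContDiff Manifold Topology ENNReal Real

namespace Vale.Agent.P231.L3

noncomputable section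

open Vale.Agent.P234 Vale.Agent.P231 Vale.Agent.P231.Fm Vale.Agent.P231.W Vale.Agent.P231.WR
  Vale.Agent.P231.H766 Vale.Agent.P231.WG Vale.Agent.P231.S2II Vale.Agent.P231.WQ

/-- the square of `b₀` from the square of `b₁` -/
theorem sys_sq {B U M : Type*} {dB : Dif B} {dU : Dif U} {dM : Dif M} {n : ℕ} {D c : ℝ}
    (S : H584.Sys dB dU dM n D c) {a μ ε : ℝ} {ρ l : Form dB} (hε : ε ^ 2 = 1)
    (hl : S.b1 = ε • S.b0 + l.d) (hr : S.b1 ^ 2 = a • S.e ^ 2 + μ • (S.G1 + S.G2) + ρ.d) :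
    ∃ η : Form dB, S.b0 ^ 2 = (2 * μ) • Form.pull S.pi S.hpi S.Fx + η.d := by
  -- `b₀ ^ 2` and `b₁ ^ 2`
  have h0 : S.b0.d = 0 := S.b0_d
  have h1 : S.b0.sg = S.b0 := S.b0_sg
  have hb : ∃ u : Form dB, S.b1 ^ 2 = S.b0 ^ 2 + u.d := by
    refine ⟨(2 * ε) • (l * S.b0) + l * l.d, ?_⟩
    have e1 : (l * S.b0).d = l.d * S.b0 := by
      rw [Form.d_mul, h0, mul_zero, add_zero]
    have e2 : (l * l.d).d = l.d * l.d := by
      rw [Form.d_mul, Form.d_d, mul_zero, add_zero]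
    have e3 : S.b0 * l.d = l.d * S.b0 := (H584.even_comm h1 _).eq
    rw [hl, Form.d_add, Form.d_smul, e1, e2, sq, mul_add, add_mul, add_mul, smul_mul_smul_comm,
      ← sq, hε, one_smul, smul_mul_assoc, mul_smul_comm, e3, sq]
    module
  -- `e ^ 2`
  have he : ∃ u : Form dB, S.e ^ 2 = u.d := by
    refine ⟨(S.T⁻¹ * S.T⁻¹) • (S.αB * S.αB.d), ?_⟩
    rw [Form.d_smul, Form.d_mul, Form.d_d, mul_zero, add_zero, S.e_eq, sq, smul_mul_smul_comm]
  -- `G₁`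
  have hG1 := S.G1_eq S.hF
  -- `G₂`
  have hB := S.pthB0
  have hG2 : ∃ u : Form dB, S.G2 = Form.pull S.pi S.hpi S.Fx + u.d := by
    have e1 : S.G2 = Form.pull S.σ S.hσ (Form.pull S.pi S.hpi S.Fx) +
        (Form.pull S.σ S.hσ (Form.K (Form.pull S.g S.hg S.F))).d := by
      rw [H584.Sys.G2, hG1, ← Form.pull_d]
      exact map_add (Form.pullA S.σ S.hσ) _ _
    have e2 : (Form.pull S.pi S.hpi S.B0).d = Form.pull S.pi S.hpi S.Fb -
        Form.pull S.pi S.hpi S.Fx := (hB.pull S.hpi).db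
    refine ⟨Form.pull S.σ S.hσ (Form.K (Form.pull S.g S.hg S.F)) + Form.pull S.pi S.hpi S.B0, ?_⟩
    rw [e1, S.σBx, Form.d_add, e2]
    abel
  obtain ⟨u1, hu1⟩ := hb
  obtain ⟨u2, hu2⟩ := he
  obtain ⟨u3, hu3⟩ := hG2
  refine ⟨a • u2 + μ • (Form.K (Form.pull S.g S.hg S.F) + u3) + ρ - u1, ?_⟩
  have h3 : S.b0 ^ 2 = S.b1 ^ 2 - u1.d := by rw [hu1]; abel
  rw [h3, hr, hu2, hu3, hG1, Form.d_sub, Form.d_add, Form.d_add, Form.d_smul, Form.d_smul,
    Form.d_add]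
  module

variable {E : Type*} [NormedAddCommGroup E] [NormedSpace ℝ E]
  {M : Type*} [MetricSpace M] [ChartedSpace E M]
  [RiemannianBundle (fun x : M => TangentSpace 𝓘(ℝ, E) x)]
  {e : ∀ x : M, TangentSpace 𝓘(ℝ, E) x → M}
  [FiniteDimensional ℝ E] [IsManifold 𝓘(ℝ, E) ∞ M]
  [IsContMDiffRiemannianBundle 𝓘(ℝ, E) ∞ E (fun x : M => TangentSpace 𝓘(ℝ, E) x)]
  [CompactSpace M] [ConnectedSpace M] [IsRiemannianManifold 𝓘(ℝ, E) M]
  (F : Facts e) {D : ℝ} (hD : 0 < D) (hB : InjGE e D) (hdiam : ∀ p q : M, dist p q ≤ D)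
  {n N : ℕ}

section three

variable [MeasurableSpace M] [BorelSpace M]
  (hl : ∀ x y : M, dist x y = D → finrank ℝ (H775.Pl e D x y) = 2 * 1 + 2)
  (hN : finrank ℝ E = N + 1) (hE : N + 1 = (2 * 1 + 2) * (n + 1)) (hn : 1 ≤ n)
  {p : M}
  {Pi : TangentSpace 𝓘(ℝ, E) p → TangentSpace 𝓘(ℝ, E) p →L[ℝ] TangentSpace 𝓘(ℝ, E) p}
  {o : TangentSpace 𝓘(ℝ, E) p → Fm.Lam (TangentSpace 𝓘(ℝ, E) p)}
  {ρ : TangentSpace 𝓘(ℝ, E) p → ℝ} {r₀ : ℝ}
  (hJ : FE.LineP e D p 1 Pi o) (hρ : WE.Rho e D p ρ r₀) {a : ℝ} (ha : a ≠ 0)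
  {Lm : Pr e D × ℝ → Pr e D} {Y : Pr e D → E} {ε₀ : ℝ} (hL : PushL F hD hB hdiam Lm Y ε₀)
  (g : Pr e D × ℝ → M) (hg : ((dPr e D).prod (Dif.lin ℝ)).Map (dM E M) g)
  (hg0 : ∀ b, g (b, 0) = foot b.v) (hg1 : ∀ b t, g (Lm (b, t), 1) = g (b, 1))

include F hD hB hdiam hl hN hE hn hJ hρ in
/-- the closed functions on the space of pairs are constant -/
theorem H0_three (w : Form (dPr e D)) (h : Form.IsDeg 0 w) (hw : w.d = 0) :
    ∃ c : ℝ, w = c • 1 := by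
  have hn0 : finrank ℝ E - 1 = N := by omega
  have hG := CoC.gen_UT (CoZ.gen_FF F hD hB hdiam hl hJ hρ one_ne_zero
    (show 2 ≤ finrank ℝ E by omega))
  rw [hn0] at hG
  exact CoC.hs_zero hG _ _ (by norm_num) (inst_ang F hD hB hdiam hl hN hE hJ hρ one_ne_zero)
    (by omega) w h hw

include hN hE hn ha in
/-- the closed forms of degree two on the space of pairs are the multiples of `b₀` up to exact
forms -/
theorem H2_three (w : Form (dPr e D)) (h : Form.IsDeg 2 w) (hw : w.d = 0) :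
    ∃ (c : ℝ) (η : Form (dPr e D)),
      w = c • b0P F hD hB hdiam (FE.FF F hD hB hdiam hl hJ hρ a) + η.d := by
  have hn0 : finrank ℝ E - 1 = N := by omega
  have hG := CoC.gen_UT (CoZ.gen_FF F hD hB hdiam hl hJ hρ one_ne_zero
    (show 2 ≤ finrank ℝ E by omega))
  rw [hn0] at hG
  refine CoC.hs_mid hG _ _ (by norm_num) (inst_ang F hD hB hdiam hl hN hE hJ hρ ha)
    (by omega) (by norm_num) (k := (2 * FE.kap 1 a)⁻¹) (ℓ := 0) ?_ w h hw
  rw [Form.d_zero, add_zero]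

include hN hE ha hg0 hg1 in
/-- **the square of `b₀`**, with the coefficient of the quadratic relation -/
theorem b0P_sq {ℓ : Form (dPr e D)} (hℓ : b1P F hD hB hdiam hL hg
      (FE.FF F hD hB hdiam hl hJ hρ a) = (-1 : ℝ) • b0P F hD hB hdiam
      (FE.FF F hD hB hdiam hl hJ hρ a) + ℓ.d)
    {a' μ : ℝ} {σ : Form (dPr e D)}
    (hrel : b1P F hD hB hdiam hL hg (FE.FF F hD hB hdiam hl hJ hρ a) ^ 2 = a' • eP e D ^ 2 +
        μ • GsP F hD hB hdiam hg (FE.FF F hD hB hdiam hl hJ hρ a) + σ.d) :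
    ∃ η : Form (dPr e D), b0P F hD hB hdiam (FE.FF F hD hB hdiam hl hJ hρ a) ^ 2 =
      (2 * μ) • Form.pull Pr.v map_v (Form.pull foot map_foot
        (FE.FF F hD hB hdiam hl hJ hρ a)) + η.d := by
  have hnt : Nontrivial E := nontrivial_of_finrank_pos (R := ℝ) (by omega)
  obtain ⟨v0, -⟩ := S2II.exists_foot (E := E) p
  obtain ⟨X⟩ := nonempty_fr F hD hB p (D + 1)
  obtain ⟨r, K, hr, hrad⟩ := exists_radCut (V := Eu E)
  have hDR : D < D + 1 := lt_add_one D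
  let b : OrthonormalBasis (Fin (N + 1)) ℝ (Eu E) :=
    (stdOrthonormalBasis ℝ (Eu E)).reindex (finCongr (by
      rw [finrank_euclideanSpace, Fintype.card_fin, hN]))
  exact sys_sq (inst F hD hB hdiam hl hN hE hJ hρ ha hL g hg hg0 hg1 X v0 hr hDR b)
    (ρ := σ) (ε := -1) (by norm_num) (l := ℓ) hℓ hrel

end three

end

end Vale.Agent.P231.L3
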