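import Vale.Agent.P231.L3.GInt
import Vale.Agent.P231.L3.GQ
import Vale.Agent.P231.L3.RelR

/-! P231, stage 2: the classes of the space of pairs for the flow of rotations. -/

set_option maxSynthPendingDepth 3
set_option linter.unusedSectionVars false
set_option linter.unusedVariables false

open Bundle Manifold Set Filter Module MeasureTheory
open scoped ContDiff Manifold Topology ENNReal Real

namespace Vale.Agent.P231.L3

noncomputable section

open Vale.Agent.P234 Vale.Agent.P231 Vale.Agent.P231.Fm Vale.Agent.P231.W Vale.Agent.P231.WR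
  Vale.Agent.P231.H766 Vale.Agent.P231.WG Vale.Agent.P231.S2II Vale.Agent.P231.WQ

variable {E : Type*} [NormedAddCommGroup E] [NormedSpace ℝ E]
  {M : Type*} [MetricSpace M] [ChartedSpace E M]
  [RiemannianBundle (fun x : M => TangentSpace 𝓘(ℝ, E) x)]
  {e : ∀ x : M, TangentSpace 𝓘(ℝ, E) x → M}
  [FiniteDimensional ℝ E] [IsManifold 𝓘(ℝ, E) ∞ M]
  [IsContMDiffRiemannianBundle 𝓘(ℝ, E) ∞ E (fun x : M => TangentSpace 𝓘(ℝ, E) x)]
  [CompactSpace M] [ConnectedSpace M] [IsRiemannianManifold 𝓘(ℝ, E) M]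
  (F : Facts e) {D : ℝ} (hD : 0 < D) (hB : InjGE e D) (hdiam : ∀ p q : M, dist p q ≤ D)
  {n N : ℕ}

section three

variable (hl : ∀ x y : M, dist x y = D → finrank ℝ (H775.Pl e D x y) = 2 * 1 + 2)
  (hN : finrank ℝ E = N + 1) (hE : N + 1 = (2 * 1 + 2) * (n + 1))
  {p : M}
  {Pi : TangentSpace 𝓘(ℝ, E) p → TangentSpace 𝓘(ℝ, E) p →L[ℝ] TangentSpace 𝓘(ℝ, E) p}
  {o : TangentSpace 𝓘(ℝ, E) p → Fm.Lam (TangentSpace 𝓘(ℝ, E) p)}
  {ρ : TangentSpace 𝓘(ℝ, E) p → ℝ} {r₀ : ℝ}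
  (hJ : FE.LineP e D p 1 Pi o) (hρ : WE.Rho e D p ρ r₀) {a : ℝ} (ha : a ≠ 0)

/-- **the data of the classes**: `F₁` is the form at the cut point, `F₂` the form at the foot
point -/
theorem geo_three {κ : ℝ} (hκ : κ ≠ 0) {ν F1 F2 B : Form (dPr e D)}
    (ν1 : Form.pull (R F hD hB hdiam) (isFlow_R F hD hB hdiam).map ν = pr ν + dt)
    (νo : ν.sg = -ν)
    (h1 : F1 = Form.pull Pr.v map_v (Form.pull (bar e D) (map_bar F D)
      (FE.FF F hD hB hdiam hl hJ hρ a)))
    (h2 : F2 = Form.pull Pr.v map_v (Form.pull foot map_foot (FE.FF F hD hB hdiam hl hJ hρ a)))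
    (hB' : B = Form.pull Pr.v map_v (B0 F D (FE.FF F hD hB hdiam hl hJ hρ a))) :
    S2X.Geo (isFlow_R F hD hB hdiam) κ ν F1 F2 B := by
  have hO4 := S2II.isDeg_FF F hD hB hdiam hl hJ hρ a
  have hOd := FE.FF_d F hD hB hdiam hl hJ hρ a
  have g1 : Form.IsDeg 4 F1 := by
    rw [h1]
    exact (hO4.pull _ (map_bar F D)).pull _ map_v
  have g2 : Form.IsDeg 4 F2 := by
    rw [h2]
    exact (hO4.pull _ map_foot).pull _ map_v
  have gB : Form.IsDeg 3 B := by
    rw [hB']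
    exact (S2II.isDeg_B0 F hO4).pull _ map_v
  refine ⟨mul_ne_zero two_ne_zero Real.pi_ne_zero, hκ, ν1, νo, g1.sg_of_even (by decide), ?_, ?_,
    g2.sg_of_even (by decide), ?_, ?_, gB.sg_of_odd (by decide), ?_⟩
  · rw [h1, ← Form.pull_d, ← Form.pull_d, hOd]
    exact (congrArg (Form.pull Pr.v map_v) (map_zero (Form.pullA (bar e D) (map_bar F D)))).trans
      (map_zero (Form.pullA Pr.v map_v))
  · rw [h1, H584.pull_pull (k := fun q : Pr e D => bar e D q.v) map_v (map_bar F D)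
      (fun h => map_bar F D (map_v h)) (fun q => rfl)]
    exact H584.basic_pull _ (fun q t => bar_rv F hD hB hdiam q t) _
  · rw [h2, ← Form.pull_d, ← Form.pull_d, hOd]
    exact (congrArg (Form.pull Pr.v map_v) (map_zero (Form.pullA foot map_foot))).trans
      (map_zero (Form.pullA Pr.v map_v))
  · rw [h2, H584.pull_pull (k := fun q : Pr e D => foot q.v) map_v map_foot
      (fun h => map_foot (map_v h)) (fun q => rfl)]
    exact H584.basic_pull _ (fun q t => rfl) _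
  · rw [hB', h1, h2, ← Form.pull_d, S2II.B0_d F hOd]
    exact map_sub (Form.pullA Pr.v map_v) _ _

include hN hE ha in
/-- **the square of `z`** -/
theorem quad_three (hn : 1 ≤ n) {ν F1 F2 B : Form (dPr e D)}
    (G : S2X.Geo (isFlow_R F hD hB hdiam) (FE.kap 1 a) ν F1 F2 B)
    (h2 : F2 = Form.pull Pr.v map_v (Form.pull foot map_foot (FE.FF F hD hB hdiam hl hJ hρ a)))
    (hB' : B = Form.pull Pr.v map_v (B0 F D (FE.FF F hD hB hdiam hl hJ hρ a)))
    {c : ℝ} {η : Form (dPr e D)} (hsq : b0P F hD hB hdiam (FE.FF F hD hB hdiam hl hJ hρ a) ^ 2 =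
      (2 * (2 * FE.kap 1 a * c)) • Form.pull Pr.v map_v (Form.pull foot map_foot
        (FE.FF F hD hB hdiam hl hJ hρ a)) + η.d) :
    ∃ c₂ c₃ : ℝ, G.z ^ 2 = (4 * c) • G.x2 + c₂ • (G.y * G.z) + c₃ • G.y ^ 2 := by
  borelize M
  have hO4 := S2II.isDeg_FF F hD hB hdiam hl hJ hρ a
  have g2 : Form.IsDeg 4 F2 := by
    rw [h2]
    exact (hO4.pull _ map_foot).pull _ map_v
  have gB : Form.IsDeg 3 B := by
    rw [hB']
    exact (S2II.isDeg_B0 F hO4).pull _ map_v
  have hJb : J (R F hD hB hdiam) (isFlow_R F hD hB hdiam).map (2 * π) B =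
      b0P F hD hB hdiam (FE.FF F hD hB hdiam hl hJ hρ a) := by
    rw [hB']
    rfl
  refine G.quad gB g2 (H0_three F hD hB hdiam hl hN hE hn hJ hρ) ?_ (η := η) ?_
  · rw [hJb]
    exact H2_three F hD hB hdiam hl hN hE hn hJ hρ ha
  · rw [hJb, h2]
    exact hsq

end three

end

end Vale.Agent.P231.L3
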