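import Vale.Agent.P231.L3.Inst
import Vale.Agent.P231.S2N.LinT
import Vale.Agent.P231.WH.Vol

/-! P231, stage 3, block L: the volume inequality from the coefficient estimate, multiplicity
seven. -/

set_option maxSynthPendingDepth 3
set_option linter.unusedSectionVars false
set_option linter.unusedVariables false

open Bundle Manifold Set Filter Module MeasureTheory
open scoped ContDiff Manifold Topology ENNReal Real

namespace Vale.Agent.P231.L3

noncomputable section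

open Vale.Agent.P234 Vale.Agent.P231 Vale.Agent.P231.Fm Vale.Agent.P231.W Vale.Agent.P231.WR
  Vale.Agent.P231.H766 Vale.Agent.P231.WG Vale.Agent.P231.S2II Vale.Agent.P231.WQ

variable {E : Type*} [NormedAddCommGroup E] [NormedSpace ℝ E]
  {M : Type*} [MetricSpace M] [ChartedSpace E M]
  [RiemannianBundle (fun x : M => TangentSpace 𝓘(ℝ, E) x)]
  {e : ∀ x : M, TangentSpace 𝓘(ℝ, E) x → M}
  [FiniteDimensional ℝ E] [IsManifold 𝓘(ℝ, E) ∞ M]
  [IsContMDiffRiemannianBundle 𝓘(ℝ, E) ∞ E (fun x : M => TangentSpace 𝓘(ℝ, E) x)]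
  [CompactSpace M] [ConnectedSpace M] [IsRiemannianManifold 𝓘(ℝ, E) M]
  (F : Facts e) {D : ℝ} (hD : 0 < D) (hB : InjGE e D) (hdiam : ∀ p q : M, dist p q ≤ D)

section seven

variable [MeasurableSpace M] [BorelSpace M]
  (hl : ∀ x y : M, dist x y = D → finrank ℝ (H775.Pl e D x y) = 2 * 3 + 2)
  (hN : finrank ℝ E = 15 + 1)
  {p : M}
  {Pi : TangentSpace 𝓘(ℝ, E) p → TangentSpace 𝓘(ℝ, E) p →L[ℝ] TangentSpace 𝓘(ℝ, E) p}
  {o : TangentSpace 𝓘(ℝ, E) p → Fm.Lam (TangentSpace 𝓘(ℝ, E) p)}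
  {ρ : TangentSpace 𝓘(ℝ, E) p → ℝ} {r₀ : ℝ}
  (hJ : FE.LineP e D p 3 Pi o) (hρ : WE.Rho e D p ρ r₀) {a : ℝ} (ha : a ≠ 0)
  {Lm : Pr e D × ℝ → Pr e D} {Y : Pr e D → E} {ε₀ : ℝ} (hL : PushL F hD hB hdiam Lm Y ε₀)
  (g : Pr e D × ℝ → M) (hg : ((dPr e D).prod (Dif.lin ℝ)).Map (dM E M) g)
  (hg0 : ∀ b, g (b, 0) = foot b.v) (hg1 : ∀ b t, g (Lm (b, t), 1) = g (b, 1))

include hN ha hg0 hg1 in
/-- **the quadratic relation, Cayley plane case** -/
theorem rel_seven {b1 : Form (dPr e D)} (hb1 : b1 = J Lm hL.flow.map (2 * D)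
      (Form.K (Form.pull g hg (FE.FF F hD hB hdiam hl hJ hρ a)) -
      Form.pull (Th F hD hB hdiam) (map_Th F hD hB hdiam)
        (Form.K (Form.pull g hg (FE.FF F hD hB hdiam hl hJ hρ a)))))
    {ℓ : Form (dPr e D)} (hℓ : b1 = (-1 : ℝ) • b0P F hD hB hdiam
      (FE.FF F hD hB hdiam hl hJ hρ a) + ℓ.d) :
    ∃ (a' μ : ℝ) (σ : Form (dPr e D)), Basic Lm hL.flow.map σ ∧
      b1 ^ 2 = a' • ((2 * D)⁻¹ • Form.pull Pr.v map_v (CV.alpha E M).d) ^ 6 +
        μ • (((2 * D)⁻¹ • Form.pull Pr.v map_v (CV.alpha E M).d) ^ 2 *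
          (Form.pull (fun b => g (b, 1)) (H584.map_at hg 1) (FE.FF F hD hB hdiam hl hJ hρ a) +
            Form.pull (Th F hD hB hdiam) (map_Th F hD hB hdiam)
              (Form.pull (fun b => g (b, 1)) (H584.map_at hg 1)
                (FE.FF F hD hB hdiam hl hJ hρ a)))) + σ.d := by
  have hE : 15 + 1 = (2 * 3 + 2) * (1 + 1) := by norm_num
  have h2 : 2 ≤ finrank ℝ E := by omega
  have hn0 : finrank ℝ E - 1 = 15 := by omega
  have hG := CoC.gen_UT (CoZ.gen_FF F hD hB hdiam hl hJ hρ ha h2)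
  rw [hn0] at hG
  have hA := inst_ang F hD hB hdiam hl hN hE hJ hρ ha
  set Om := FE.FF F hD hB hdiam hl hJ hρ a with hOm
  set ψ : Form (dPr e D) := (2 * FE.kap 3 a)⁻¹ • b0P F hD hB hdiam Om with hψ
  have hψb : ψ = (-(2 * FE.kap 3 a)⁻¹) • b1 + ((2 * FE.kap 3 a)⁻¹ • ℓ).d := by
    rw [hψ, hℓ, Form.d_smul]
    module
  refine A3.rel8 hD (isFlow_phi F hD hB hdiam) hL.flow map_v hL.v map_foot
    (map_Th F hD hB hdiam) (WR.Th_Th F hD hB hdiam) (fun b t => Th_Lam hL b t) (fun b => rfl) hg hg0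
    hg1 (FE.FF_d F hD hB hdiam hl hJ hρ a) (S2II.isDeg_FF F hD hB hdiam hl hJ hρ a)
    (CV.isDeg_alpha.sg_of_odd (by norm_num)) (CV.pull_phi_alpha F) hb1 ?_ ?_ ?_ ?_ ?_ ?_ ?_
  · exact CoC.hs_zero hG _ _ (by norm_num) hA (by norm_num)
  · exact CoC.hs_exact hG _ _ (by norm_num) hA (by norm_num) (by norm_num) (by norm_num)
  · exact CoC.hs_exact hG _ _ (by norm_num) hA (by norm_num) (by norm_num) (by norm_num)
  · exact CoC.hs_mid hG _ _ (by norm_num) hA (by norm_num) (by norm_num) hψb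
  · exact fun w h3 h4 => CoC.hs_top map_foot hG _ _ (by norm_num) hA (by norm_num) (by norm_num)
      (by norm_num) w h3 h4 _
  · exact CoC.hs_exact hG _ _ (by norm_num) hA (by norm_num) (by norm_num) (by norm_num)
  · exact CoC.hs_exact hG _ _ (by norm_num) hA (by norm_num) (by norm_num) (by norm_num)

include hN ha hg0 hg1 in
/-- **the volume inequality from the estimate of the coefficients, Cayley plane case** -/
theorem volume_seven_of {ℓ : Form (dPr e D)} (hℓ : J Lm hL.flow.map (2 * D)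
      (Form.K (Form.pull g hg (FE.FF F hD hB hdiam hl hJ hρ a)) -
      Form.pull (Th F hD hB hdiam) (map_Th F hD hB hdiam)
        (Form.K (Form.pull g hg (FE.FF F hD hB hdiam hl hJ hρ a)))) =
        (-1 : ℝ) • b0P F hD hB hdiam (FE.FF F hD hB hdiam hl hJ hρ a) + ℓ.d)
    {a' μ : ℝ} {σ : Form (dPr e D)} (hσ : Basic Lm hL.flow.map σ)
    (hrel : (J Lm hL.flow.map (2 * D)
      (Form.K (Form.pull g hg (FE.FF F hD hB hdiam hl hJ hρ a)) -
      Form.pull (Th F hD hB hdiam) (map_Th F hD hB hdiam)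
        (Form.K (Form.pull g hg (FE.FF F hD hB hdiam hl hJ hρ a))))) ^ 2 =
        a' • ((2 * D)⁻¹ • Form.pull Pr.v map_v (CV.alpha E M).d) ^ 6 +
        μ • (((2 * D)⁻¹ • Form.pull Pr.v map_v (CV.alpha E M).d) ^ 2 *
          (Form.pull (fun b => g (b, 1)) (H584.map_at hg 1) (FE.FF F hD hB hdiam hl hJ hρ a) +
            Form.pull (Th F hD hB hdiam) (map_Th F hD hB hdiam)
              (Form.pull (fun b => g (b, 1)) (H584.map_at hg 1)
                (FE.FF F hD hB hdiam hl hJ hρ a)))) + σ.d)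
    (hκ : FE.kap 3 a ^ 2 ≤ |a'|) (hμ : |μ| ≤ 6 * FE.kap 3 a) :
    Blaschke.riemannianVolume (15 + 1) M univ ≤
      ENNReal.ofReal (Blaschke.modelVolume 15 7 D) := by
  have hE : 15 + 1 = (2 * 3 + 2) * (1 + 1) := by norm_num
  have hnt : Nontrivial E := nontrivial_of_finrank_pos (R := ℝ) (by omega)
  obtain ⟨v0, -⟩ := S2II.exists_foot (E := E) p
  obtain ⟨X⟩ := nonempty_fr F hD hB p (D + 1)
  obtain ⟨r, K, hr, hrad⟩ := exists_radCut (V := Eu E)
  have hDR : D < D + 1 := lt_add_one D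
  let b : OrthonormalBasis (Fin (15 + 1)) ℝ (Eu E) :=
    (stdOrthonormalBasis ℝ (Eu E)).reindex (finCongr (by
      rw [finrank_euclideanSpace, Fintype.card_fin, hN]))
  have hm3 : 1 ≤ 3 := by norm_num
  have hq := inst_q (m := 3) (n := 1) (N := 15) F hD hB hdiam hl hN hE hJ hρ ha hL g hg hg0
    hg1 X v0 hr hDR b hm3 hrad
  have e2 : 1 + 1 = 2 := rfl
  have e4 : 2 * 2 = 4 := rfl
  rw [e2, e4, pow_one] at hq
  exact bound_seven (inst F hD hB hdiam hl hN hE hJ hρ ha hL g hg hg0 hg1 X v0 hr hDR b)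
    (inst_α F hD hB hdiam hl hN hE hJ hρ ha hL g hg hg0 hg1 X v0 hr hDR b)
    (WH.vol_ne_top F hD hB hN)
    (inst_vol F hD hB hdiam hl hN hE hJ hρ ha hL g hg hg0 hg1 X v0 hr hDR b)
    (ρ := σ) hσ hrel (ε := -1) (by norm_num) (l := ℓ) hℓ (FE.kap_pos 3 ha) hκ hμ hq

include F hN hl in
/-- **the volume inequality, Cayley plane case**, from the estimate of the two coefficients of the
quadratic relation -/
theorem volume_seven (hD' : 0 < D) (p : M)
    (hInt : ∀ {o : TangentSpace 𝓘(ℝ, E) p → Fm.Lam (TangentSpace 𝓘(ℝ, E) p)}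
      {ρ : TangentSpace 𝓘(ℝ, E) p → ℝ} {r₀ : ℝ}
      (hJ : FE.LineP e D p 3 (FE.PiP e D p) o) (hρ : WE.Rho e D p ρ r₀)
      {T : UT E M → ℝ → E →ₗ[ℝ] E} {Lm : Pr e D × ℝ → Pr e D} {Y : Pr e D → E} {ε₀ : ℝ}
      (_ : S2I3.LT F hD hB hdiam T)
      (_ : ∀ b t, (vec' (Lm (b, t)).w : E) =
        (nm (gm e (b.v, t)) (T b.v t (vec' b.w)))⁻¹ • T b.v t (vec' b.w))
      (hL : PushL F hD hB hdiam Lm Y ε₀)
      (g : Pr e D × ℝ → M) (hg : ((dPr e D).prod (Dif.lin ℝ)).Map (dM E M) g)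
      (_ : ∀ b, g (b, 0) = foot b.v) (_ : ∀ b t, g (Lm (b, t), 1) = g (b, 1))
      {ℓ : Form (dPr e D)} (_ : J Lm hL.flow.map (2 * D)
        (Form.K (Form.pull g hg (FE.FF F hD hB hdiam hl hJ hρ 1)) -
        Form.pull (Th F hD hB hdiam) (map_Th F hD hB hdiam)
          (Form.K (Form.pull g hg (FE.FF F hD hB hdiam hl hJ hρ 1)))) =
          (-1 : ℝ) • b0P F hD hB hdiam (FE.FF F hD hB hdiam hl hJ hρ 1) + ℓ.d)
      {a' μ : ℝ} {σ : Form (dPr e D)} (_ : Basic Lm hL.flow.map σ)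
      (_ : (J Lm hL.flow.map (2 * D)
        (Form.K (Form.pull g hg (FE.FF F hD hB hdiam hl hJ hρ 1)) -
        Form.pull (Th F hD hB hdiam) (map_Th F hD hB hdiam)
          (Form.K (Form.pull g hg (FE.FF F hD hB hdiam hl hJ hρ 1))))) ^ 2 =
          a' • ((2 * D)⁻¹ • Form.pull Pr.v map_v (CV.alpha E M).d) ^ 6 +
          μ • (((2 * D)⁻¹ • Form.pull Pr.v map_v (CV.alpha E M).d) ^ 2 *
            (Form.pull (fun b => g (b, 1)) (H584.map_at hg 1)
                (FE.FF F hD hB hdiam hl hJ hρ 1) +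
              Form.pull (Th F hD hB hdiam) (map_Th F hD hB hdiam)
                (Form.pull (fun b => g (b, 1)) (H584.map_at hg 1)
                  (FE.FF F hD hB hdiam hl hJ hρ 1)))) + σ.d),
      FE.kap 3 1 ^ 2 ≤ |a'| ∧ |μ| ≤ 6 * FE.kap 3 1) :
    Blaschke.riemannianVolume (15 + 1) M univ ≤
      ENNReal.ofReal (Blaschke.modelVolume 15 7 D) := by
  obtain ⟨o, hJ⟩ := FE.exists_line F hD hB hdiam (n := 3) hl (by omega) p
  obtain ⟨ρ, r₀, hρ⟩ := exists_rho (E := E) (p := p) hD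
  obtain ⟨T, Lm, Y, ε₀, hT, hw, hL, -, -, -⟩ :=
    S2N.exists_all F hD hB hdiam (l := 2 * 3 + 1) hl
  obtain ⟨g, hg, hg0, hg1, h1⟩ := hL.exists_b1 (l := 2 * 3 + 1) hl
  obtain ⟨ℓ, hℓ⟩ := h1 _ (FE.FF_d F hD hB hdiam hl hJ hρ 1)
  have hℓ' : J Lm hL.flow.map (2 * D)
        (Form.K (Form.pull g hg (FE.FF F hD hB hdiam hl hJ hρ 1)) -
        Form.pull (Th F hD hB hdiam) (map_Th F hD hB hdiam)
          (Form.K (Form.pull g hg (FE.FF F hD hB hdiam hl hJ hρ 1)))) =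
          (-1 : ℝ) • b0P F hD hB hdiam (FE.FF F hD hB hdiam hl hJ hρ 1) + ℓ.d := hℓ
  obtain ⟨a', μ, σ, hσ, hrel⟩ := rel_seven F hD hB hdiam hl hN hJ hρ one_ne_zero hL g hg hg0 hg1
    rfl hℓ'
  obtain ⟨k1, k2⟩ := hInt hJ hρ hT hw hL g hg hg0 hg1 hℓ' hσ hrel
  exact volume_seven_of F hD hB hdiam hl hN hJ hρ one_ne_zero hL g hg hg0 hg1 hℓ' hσ hrel k1 k2

end seven

end

end Vale.Agent.P231.L3
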