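import Vale.Agent.P231.L3.Core

/-! P231, stage 3, block L: the volume inequality from the value of the coefficient. -/

set_option maxSynthPendingDepth 3
set_option linter.unusedSectionVars false
set_option linter.unusedVariables false

open Bundle Manifold Set Filter Module MeasureTheory
open scoped ContDiff Manifold Topology ENNReal Real

namespace Vale.Agent.P231.L3

noncomputable section

open Vale.Agent.P234 Vale.Agent.P231 Vale.Agent.P231.H703 Vale.Agent.P231.Fm Vale.Agent.P231.W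
  H584

variable {B U : Type*} {M : Type*} {dB : Dif B} {dU : Dif U} {dM : Dif M}

/-- the volume bound, Cayley plane case, from the value `E ≤ 78` of the Weinstein number -/
theorem bound_seven' {D c : ℝ} (S : Sys dB dU dM 1 D c)
    (hαN : S.α.d ^ 16 = 0) {V : ENNReal} (hV : V ≠ ⊤)
    (hvol : |S.I (S.α * S.α.d ^ 15)| = (Nat.factorial 15 : ℝ) *
      (2 * √Real.pi ^ (15 + 1) / Real.Gamma (((15 : ℕ) + 1 : ℝ) / 2)) * V.toReal)
    {a μ : ℝ} {ρ : Form dB} (hρ : Basic S.φ S.hφ.map ρ)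
    (hrel : S.b1 ^ 2 = a • S.e ^ 6 + μ • (S.e ^ 2 * (S.G1 + S.G2)) + ρ.d)
    {ε : ℝ} (hε : ε ≠ 0) {l : Form dB} (hl : S.b1 = ε • S.b0 + l.d)
    {κ : ℝ} (ha : a ≠ 0) (hc : |2 * (-3 / a ^ 2 + μ ^ 2 / a ^ 3)| * κ ^ 4 ≤ 78)
    (hq : |S.I (S.B0 * (S.Fx ^ 2 * S.Fb))| ≤ κ ^ 4) :
    V ≤ ENNReal.ofReal (Blaschke.modelVolume 15 7 D) := by
  have hT : (0 : ℝ) < (2 * D) ^ 16 := by
    have := S.hD
    positivity
  have e2 : S.T = 2 * D := rfl
  have h1 : |S.I (S.α * S.α.d ^ 15)| ≤ 78 * (2 * D) ^ 16 := by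
    rw [S.volume8 ha hρ hrel hαN hε hl, e2]
    have e3 : -2 * (2 * D) ^ 16 * (-3 / a ^ 2 + μ ^ 2 / a ^ 3) * S.I (S.B0 * (S.Fx ^ 2 * S.Fb)) =
        -((2 * (-3 / a ^ 2 + μ ^ 2 / a ^ 3)) * S.I (S.B0 * (S.Fx ^ 2 * S.Fb)) *
          (2 * D) ^ 16) := by ring
    rw [e3, abs_neg, abs_mul (2 * (-3 / a ^ 2 + μ ^ 2 / a ^ 3) * _), abs_of_pos hT,
      abs_mul (2 * (-3 / a ^ 2 + μ ^ 2 / a ^ 3))]
    refine mul_le_mul_of_nonneg_right ?_ hT.le
    exact (mul_le_mul_of_nonneg_left hq (abs_nonneg _)).trans hc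
  refine le_ofReal_of (N := 15) (C := 78) S.hD hV rfl (by simpa using hvol) h1 (by norm_num) ?_
  have h2 := number7 S.hD
  have e3 : (((15 : ℕ) : ℝ) + 1) / 2 = ((8 : ℕ) : ℝ) := by norm_num
  rw [e3]
  exact h2

/-- the coefficient for `a = α κ²`, `μ = m κ / 2` (so that `12 u² = - α e⁸ - m e⁴ u`) -/
theorem coef_norm {κ α m : ℝ} (hκ : κ ≠ 0) (hα : α ≠ 0) :
    |2 * (-3 / (α * κ ^ 2) ^ 2 + (m * κ / 2) ^ 2 / (α * κ ^ 2) ^ 3)| * κ ^ 4 =
      |m ^ 2 - 12 * α| / (2 * |α| ^ 3) := by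
  have h1 : 2 * (-3 / (α * κ ^ 2) ^ 2 + (m * κ / 2) ^ 2 / (α * κ ^ 2) ^ 3) =
      (m ^ 2 - 12 * α) / (2 * α ^ 3) / κ ^ 4 := by
    field_simp
    ring
  have hκ4 : (0 : ℝ) < κ ^ 4 := by positivity
  rw [h1, abs_div, abs_of_pos hκ4, div_mul_cancel₀ _ hκ4.ne', abs_div, abs_mul, abs_two, abs_pow]

/-- the finitely many solutions of the level two equation are at most the model -/
theorem coef_cases {α m : ℝ} (h : (|m| ≤ 12 ∧ 1 ≤ |α|) ∨ (|m| ≤ 3 ∧ 1 / 2 ≤ |α|)) :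
    |m ^ 2 - 12 * α| / (2 * |α| ^ 3) ≤ 78 := by
  have key : ∀ (s t : ℝ), 0 < s → s ≤ |α| → |m| ≤ t → t ^ 2 + 12 * s ≤ 156 * s ^ 3 → 12 ≤ 156 * s ^ 2 →
      |m ^ 2 - 12 * α| / (2 * |α| ^ 3) ≤ 78 := by
    intro s t hs hsa hmt h1 h2
    have ha : 0 < |α| := hs.trans_le hsa
    rw [div_le_iff₀ (by positivity)]
    have h3 : |m ^ 2 - 12 * α| ≤ |m| ^ 2 + 12 * |α| := by
      refine (abs_sub _ _).trans ?_
      rw [abs_pow, abs_mul, abs_of_pos (show (0 : ℝ) < 12 by norm_num)]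
    have h4 : |m| ^ 2 ≤ t ^ 2 := pow_le_pow_left₀ (abs_nonneg m) hmt 2
    have h5 : 156 * s ^ 3 - 12 * s ≤ 156 * |α| ^ 3 - 12 * |α| := by
      have h6 : 156 * |α| ^ 3 - 12 * |α| - (156 * s ^ 3 - 12 * s) =
          (|α| - s) * (156 * (|α| ^ 2 + |α| * s + s ^ 2) - 12) := by ring
      have h7 : 0 ≤ (|α| - s) * (156 * (|α| ^ 2 + |α| * s + s ^ 2) - 12) := by
        refine mul_nonneg (by linarith) ?_
        have : 0 < |α| ^ 2 + |α| * s := by positivity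
        nlinarith
      linarith
    linarith
  rcases h with ⟨h1, h2⟩ | ⟨h1, h2⟩
  · exact key 1 12 one_pos h2 h1 (by norm_num) (by norm_num)
  · exact key (1 / 2) 3 (by norm_num) h2 h1 (by norm_num) (by norm_num)

end

end Vale.Agent.P231.L3
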