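import Vale.Agent.P231.L3.Inst7
import Vale.Agent.P231.L3.Three
import Vale.Agent.P231.L3.Seven

/-! P231, stage 3, block L: the volume inequality from the value of the Weinstein number,
multiplicity seven. -/

set_option maxSynthPendingDepth 3
set_option linter.unusedSectionVars false
set_option linter.unusedVariables false

open Bundle Manifold Set Filter Module MeasureTheory
open scoped ContDiff Manifold Topology ENNReal Real

namespace Vale.Agent.P231.L3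

noncomputable section

open Vale.Agent.P234 Vale.Agent.P231 Vale.Agent.P231.Fm Vale.Agent.P231.W Vale.Agent.P231.WR
  Vale.Agent.P231.H766 Vale.Agent.P231.WG Vale.Agent.P231.S2II Vale.Agent.P231.WQ

variable {E : Type*} [NormedAddCommGroup E] [NormedSpace ℝ E]
  {M : Type*} [MetricSpace M] [ChartedSpace E M]
  [RiemannianBundle (fun x : M => TangentSpace 𝓘(ℝ, E) x)]
  {e : ∀ x : M, TangentSpace 𝓘(ℝ, E) x → M}
  [FiniteDimensional ℝ E] [IsManifold 𝓘(ℝ, E) ∞ M]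
  [IsContMDiffRiemannianBundle 𝓘(ℝ, E) ∞ E (fun x : M => TangentSpace 𝓘(ℝ, E) x)]
  [CompactSpace M] [ConnectedSpace M] [IsRiemannianManifold 𝓘(ℝ, E) M]
  (F : Facts e) {D : ℝ} (hD : 0 < D) (hB : InjGE e D) (hdiam : ∀ p q : M, dist p q ≤ D)
  {m n N : ℕ}

section gen

variable [MeasurableSpace M] [BorelSpace M]
  (hl : ∀ x y : M, dist x y = D → finrank ℝ (H775.Pl e D x y) = 2 * m + 2)
  (hN : finrank ℝ E = N + 1) (hE : N + 1 = (2 * m + 2) * (n + 1))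
  {p : M}
  {Pi : TangentSpace 𝓘(ℝ, E) p → TangentSpace 𝓘(ℝ, E) p →L[ℝ] TangentSpace 𝓘(ℝ, E) p}
  {o : TangentSpace 𝓘(ℝ, E) p → Fm.Lam (TangentSpace 𝓘(ℝ, E) p)}
  {ρ : TangentSpace 𝓘(ℝ, E) p → ℝ} {r₀ : ℝ}
  (hJ : FE.LineP e D p m Pi o) (hρ : WE.Rho e D p ρ r₀) {a : ℝ} (ha : a ≠ 0)
  {Lm : Pr e D × ℝ → Pr e D} {Y : Pr e D → E} {ε₀ : ℝ} (hL : PushL F hD hB hdiam Lm Y ε₀)
  (g : Pr e D × ℝ → M) (hg : ((dPr e D).prod (Dif.lin ℝ)).Map (dM E M) g)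
  (hg0 : ∀ b, g (b, 0) = foot b.v) (hg1 : ∀ b t, g (Lm (b, t), 1) = g (b, 1))
  {R : ℝ} (X : Fr e p R) (v0 : UT E M) {r : Eu E → ℝ} {K : Set (Eu E)} (hr : Q.Cut r K)
  (hDR : D < R) (b : OrthonormalBasis (Fin (N + 1)) ℝ (Eu E))

/-- the value of the right-hand side is not zero, any multiplicity -/
theorem inst_qm_ne (hm : 1 ≤ m)
    (hrad : ∀ y z : Eu E, (inner ℝ y z : ℝ) = 0 → fderiv ℝ r y z = 0) :
    (inst F hD hB hdiam hl hN hE hJ hρ ha hL g hg hg0 hg1 X v0 hr hDR b).I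
      ((inst F hD hB hdiam hl hN hE hJ hρ ha hL g hg hg0 hg1 X v0 hr hDR b).B0 *
        ((inst F hD hB hdiam hl hN hE hJ hρ ha hL g hg hg0 hg1 X v0 hr hDR b).Fx ^ (n + 1) *
          (inst F hD hB hdiam hl hN hE hJ hρ ha hL g hg hg0 hg1 X v0 hr hDR b).Fb ^ n)) ≠ 0 := by
  have h0 : finrank ℝ E = (2 * m + 2) * (n + 1) := hN.trans hE
  have hs : ∀ v : UT E M, ∃ q : Pr e D, q.v = v := fun v => by
    obtain ⟨W, hW⟩ := exists_isLF F hD hB hdiam (l := 2 * m + 1) hl v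
    exact ⟨S2II.Fr.p0 (⟨(v, W), hW⟩ : S2II.Fr e D (2 * m + 1)), rfl⟩
  have h1 := Q2.II_eq X v0 F hD hB hdiam hs (FE.FF_d F hD hB hdiam hl hJ hρ a)
    (FE.FF_deg F hD hB hdiam hl hJ hρ a) ⟨m + 1, by ring⟩ (by omega) (n := n + 1) (by omega) h0
    b.toBasis hr hrad hDR (FE.ang_PsiE hJ.os a) (WQ.cut_rho hρ) (WQ.closedBall_sub hρ)
    (fun x hx => FE.FF_ef F hD hB hdiam hl hJ hρ a hx)
    (fun y hy => FE.B0_cc F hD hB hdiam hl hJ hρ a (hD.trans hDR) X v0 hy)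
  have h2 := (FE.q_le hJ.os ha hm (Nat.succ_pos n) h0 b hr).2
  have h3 : (inst F hD hB hdiam hl hN hE hJ hρ ha hL g hg hg0 hg1 X v0 hr hDR b).I
      ((inst F hD hB hdiam hl hN hE hJ hρ ha hL g hg hg0 hg1 X v0 hr hDR b).B0 *
        ((inst F hD hB hdiam hl hN hE hJ hρ ha hL g hg hg0 hg1 X v0 hr hDR b).Fx ^ (n + 1) *
          (inst F hD hB hdiam hl hN hE hJ hρ ha hL g hg hg0 hg1 X v0 hr hDR b).Fb ^ n)) =
      Q.qv volume b.toBasis r (FE.PsiE m a p Pi o) (n + 1 - 1) *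
        Q.qv volume b.toBasis r (FE.PsiE m a p Pi o) (n + 1 - 1) := h1
  rw [h3]
  exact mul_ne_zero h2 h2

end gen

section seven

variable [MeasurableSpace M] [BorelSpace M]
  (hl : ∀ x y : M, dist x y = D → finrank ℝ (H775.Pl e D x y) = 2 * 3 + 2)
  (hN : finrank ℝ E = 15 + 1)
  {p : M}
  {Pi : TangentSpace 𝓘(ℝ, E) p → TangentSpace 𝓘(ℝ, E) p →L[ℝ] TangentSpace 𝓘(ℝ, E) p}
  {o : TangentSpace 𝓘(ℝ, E) p → Fm.Lam (TangentSpace 𝓘(ℝ, E) p)}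
  {ρ : TangentSpace 𝓘(ℝ, E) p → ℝ} {r₀ : ℝ}
  (hJ : FE.LineP e D p 3 Pi o) (hρ : WE.Rho e D p ρ r₀) {a : ℝ} (ha : a ≠ 0)
  {Lm : Pr e D × ℝ → Pr e D} {Y : Pr e D → E} {ε₀ : ℝ} (hL : PushL F hD hB hdiam Lm Y ε₀)
  (g : Pr e D × ℝ → M) (hg : ((dPr e D).prod (Dif.lin ℝ)).Map (dM E M) g)
  (hg0 : ∀ b, g (b, 0) = foot b.v) (hg1 : ∀ b t, g (Lm (b, t), 1) = g (b, 1))

include hN ha hg0 hg1 in
/-- the coefficient `a` of the quadratic relation is not zero -/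
theorem a_ne_seven {ℓ : Form (dPr e D)} (hℓ : b1P F hD hB hdiam hL hg
      (FE.FF F hD hB hdiam hl hJ hρ a) = (-1 : ℝ) • b0P F hD hB hdiam
      (FE.FF F hD hB hdiam hl hJ hρ a) + ℓ.d)
    {a' μ : ℝ} {σ : Form (dPr e D)} (hσ : Basic Lm hL.flow.map σ)
    (hrel : b1P F hD hB hdiam hL hg (FE.FF F hD hB hdiam hl hJ hρ a) ^ 2 = a' • eP e D ^ 6 +
        μ • (eP e D ^ 2 * GsP F hD hB hdiam hg (FE.FF F hD hB hdiam hl hJ hρ a)) + σ.d) :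
    a' ≠ 0 := by
  have hE : 15 + 1 = (2 * 3 + 2) * (1 + 1) := by norm_num
  have hnt : Nontrivial E := nontrivial_of_finrank_pos (R := ℝ) (by omega)
  obtain ⟨v0, -⟩ := S2II.exists_foot (E := E) p
  obtain ⟨X⟩ := nonempty_fr F hD hB p (D + 1)
  obtain ⟨r, K, hr, hrad⟩ := exists_radCut (V := Eu E)
  have hDR : D < D + 1 := lt_add_one D
  let b : OrthonormalBasis (Fin (15 + 1)) ℝ (Eu E) :=
    (stdOrthonormalBasis ℝ (Eu E)).reindex (finCongr (by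
      rw [finrank_euclideanSpace, Fintype.card_fin, hN]))
  have hm3 : 1 ≤ 3 := by norm_num
  have hq := inst_qm_ne (m := 3) (n := 1) (N := 15) F hD hB hdiam hl hN hE hJ hρ ha hL g hg hg0
    hg1 X v0 hr hDR b hm3 hrad
  exact (inst F hD hB hdiam hl hN hE hJ hρ ha hL g hg hg0 hg1 X v0 hr hDR b).a_ne_zero8
    (ρ := σ) hσ hrel (ε := -1) (by norm_num) (l := ℓ) hℓ hq

include hN ha hg0 hg1 in
/-- **the volume inequality from the value of the Weinstein number, Cayley plane case** -/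
theorem volume_seven_of' {ℓ : Form (dPr e D)} (hℓ : b1P F hD hB hdiam hL hg
      (FE.FF F hD hB hdiam hl hJ hρ a) = (-1 : ℝ) • b0P F hD hB hdiam
      (FE.FF F hD hB hdiam hl hJ hρ a) + ℓ.d)
    {a' μ : ℝ} {σ : Form (dPr e D)} (hσ : Basic Lm hL.flow.map σ)
    (hrel : b1P F hD hB hdiam hL hg (FE.FF F hD hB hdiam hl hJ hρ a) ^ 2 = a' • eP e D ^ 6 +
        μ • (eP e D ^ 2 * GsP F hD hB hdiam hg (FE.FF F hD hB hdiam hl hJ hρ a)) + σ.d)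
    (hc : |2 * (-3 / a' ^ 2 + μ ^ 2 / a' ^ 3)| * FE.kap 3 a ^ 4 ≤ 78) :
    Blaschke.riemannianVolume (15 + 1) M univ ≤
      ENNReal.ofReal (Blaschke.modelVolume 15 7 D) := by
  have ha' := a_ne_seven F hD hB hdiam hl hN hJ hρ ha hL g hg hg0 hg1 hℓ hσ hrel
  have hE : 15 + 1 = (2 * 3 + 2) * (1 + 1) := by norm_num
  have hnt : Nontrivial E := nontrivial_of_finrank_pos (R := ℝ) (by omega)
  obtain ⟨v0, -⟩ := S2II.exists_foot (E := E) p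
  obtain ⟨X⟩ := nonempty_fr F hD hB p (D + 1)
  obtain ⟨r, K, hr, hrad⟩ := exists_radCut (V := Eu E)
  have hDR : D < D + 1 := lt_add_one D
  let b : OrthonormalBasis (Fin (15 + 1)) ℝ (Eu E) :=
    (stdOrthonormalBasis ℝ (Eu E)).reindex (finCongr (by
      rw [finrank_euclideanSpace, Fintype.card_fin, hN]))
  have hm3 : 1 ≤ 3 := by norm_num
  have hq := inst_q (m := 3) (n := 1) (N := 15) F hD hB hdiam hl hN hE hJ hρ ha hL g hg hg0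
    hg1 X v0 hr hDR b hm3 hrad
  have e2 : 1 + 1 = 2 := rfl
  have e4 : 2 * 2 = 4 := rfl
  rw [e2, e4, pow_one] at hq
  exact bound_seven' (inst F hD hB hdiam hl hN hE hJ hρ ha hL g hg hg0 hg1 X v0 hr hDR b)
    (inst_α F hD hB hdiam hl hN hE hJ hρ ha hL g hg hg0 hg1 X v0 hr hDR b)
    (WH.vol_ne_top F hD hB hN)
    (inst_vol F hD hB hdiam hl hN hE hJ hρ ha hL g hg hg0 hg1 X v0 hr hDR b)
    (ρ := σ) hσ hrel (ε := -1) (by norm_num) (l := ℓ) hℓ ha' hc hq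

include F hN hl in
/-- **the volume inequality, Cayley plane case**, from the value of the Weinstein number: the
hypothesis `hInt` is the only missing input -/
theorem volume_seven' (hD' : 0 < D) (p : M)
    (hInt : ∀ {o : TangentSpace 𝓘(ℝ, E) p → Fm.Lam (TangentSpace 𝓘(ℝ, E) p)}
      {ρ : TangentSpace 𝓘(ℝ, E) p → ℝ} {r₀ : ℝ}
      (hJ : FE.LineP e D p 3 (FE.PiP e D p) o) (hρ : WE.Rho e D p ρ r₀)
      {T : UT E M → ℝ → E →ₗ[ℝ] E} {Lm : Pr e D × ℝ → Pr e D} {Y : Pr e D → E} {ε₀ : ℝ}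
      (_ : S2I3.LT F hD hB hdiam T)
      (_ : ∀ b t, (vec' (Lm (b, t)).w : E) =
        (nm (gm e (b.v, t)) (T b.v t (vec' b.w)))⁻¹ • T b.v t (vec' b.w))
      (hL : PushL F hD hB hdiam Lm Y ε₀)
      (_ : ∀ b t, Lm (S2N.rev F hD hB hdiam b, t) = S2N.rev F hD hB hdiam (Lm (b, -t)))
      (g : Pr e D × ℝ → M) (hg : ((dPr e D).prod (Dif.lin ℝ)).Map (dM E M) g)
      (_ : ∀ b, g (b, 0) = foot b.v) (_ : ∀ b t, g (Lm (b, t), 1) = g (b, 1))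
      {ℓ : Form (dPr e D)} (_ : b1P F hD hB hdiam hL hg (FE.FF F hD hB hdiam hl hJ hρ 1) =
          (-1 : ℝ) • b0P F hD hB hdiam (FE.FF F hD hB hdiam hl hJ hρ 1) + ℓ.d)
      {a' μ : ℝ} {σ : Form (dPr e D)} (_ : Basic Lm hL.flow.map σ)
      (_ : b1P F hD hB hdiam hL hg (FE.FF F hD hB hdiam hl hJ hρ 1) ^ 2 =
          a' • eP e D ^ 6 + μ • (eP e D ^ 2 *
            GsP F hD hB hdiam hg (FE.FF F hD hB hdiam hl hJ hρ 1)) + σ.d),
      a' ≠ 0 → |2 * (-3 / a' ^ 2 + μ ^ 2 / a' ^ 3)| * FE.kap 3 1 ^ 4 ≤ 78) :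
    Blaschke.riemannianVolume (15 + 1) M univ ≤
      ENNReal.ofReal (Blaschke.modelVolume 15 7 D) := by
  obtain ⟨o, hJ⟩ := FE.exists_line F hD hB hdiam (n := 3) hl (by omega) p
  obtain ⟨ρ, r₀, hρ⟩ := exists_rho (E := E) (p := p) hD
  obtain ⟨T, Lm, Y, ε₀, hT, hw, hL, -, hrev, -⟩ :=
    S2N.exists_all F hD hB hdiam (l := 2 * 3 + 1) hl
  obtain ⟨g, hg, hg0, hg1, h1⟩ := hL.exists_b1 (l := 2 * 3 + 1) hl
  obtain ⟨ℓ, hℓ⟩ := h1 _ (FE.FF_d F hD hB hdiam hl hJ hρ 1)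
  have hℓ' : b1P F hD hB hdiam hL hg (FE.FF F hD hB hdiam hl hJ hρ 1) =
          (-1 : ℝ) • b0P F hD hB hdiam (FE.FF F hD hB hdiam hl hJ hρ 1) + ℓ.d := hℓ
  obtain ⟨a', μ, σ, hσ, hrel⟩ := rel_seven F hD hB hdiam hl hN hJ hρ one_ne_zero hL g hg hg0 hg1
    rfl hℓ'
  have hrel' : b1P F hD hB hdiam hL hg (FE.FF F hD hB hdiam hl hJ hρ 1) ^ 2 =
          a' • eP e D ^ 6 + μ • (eP e D ^ 2 *
            GsP F hD hB hdiam hg (FE.FF F hD hB hdiam hl hJ hρ 1)) + σ.d := hrel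
  exact volume_seven_of' F hD hB hdiam hl hN hJ hρ one_ne_zero hL g hg hg0 hg1 hℓ' hσ hrel'
    (hInt hJ hρ hT hw hL hrev g hg hg0 hg1 hℓ' hσ hrel'
      (a_ne_seven F hD hB hdiam hl hN hJ hρ one_ne_zero hL g hg hg0 hg1 hℓ' hσ hrel'))

end seven

end

end Vale.Agent.P231.L3
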