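import Vale.Agent.P231.L3.FinalThree
import Vale.Agent.P231.L3.AbsC

/-! P231, stage 2, block L: the main theorem for cut multiplicity three. -/

set_option maxSynthPendingDepth 3
set_option linter.unusedSectionVars false
set_option linter.unusedVariables false

open Bundle Manifold Set Filter Module MeasureTheory
open scoped ContDiff Manifold Topology ENNReal Real

namespace Vale.Agent.P231.L3

noncomputable section

open Vale.Agent.P234 Vale.Agent.P231 Vale.Agent.P231.Fm Vale.Agent.P231.W Vale.Agent.P231.WR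
  Vale.Agent.P231.H766 Vale.Agent.P231.WG Vale.Agent.P231.S2II Vale.Agent.P231.WQ

variable {E : Type*} [NormedAddCommGroup E] [NormedSpace ℝ E]
  {M : Type*} [MetricSpace M] [ChartedSpace E M]
  [RiemannianBundle (fun x : M => TangentSpace 𝓘(ℝ, E) x)]
  {e : ∀ x : M, TangentSpace 𝓘(ℝ, E) x → M}
  [FiniteDimensional ℝ E] [IsManifold 𝓘(ℝ, E) ∞ M]
  [IsContMDiffRiemannianBundle 𝓘(ℝ, E) ∞ E (fun x : M => TangentSpace 𝓘(ℝ, E) x)]
  [CompactSpace M] [ConnectedSpace M] [IsRiemannianManifold 𝓘(ℝ, E) M]

/-- **Main theorem for cut multiplicity three.** -/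
theorem main_three [MeasurableSpace M] [BorelSpace M] (he : IsExp e)
    (hinj : Blaschke.InjGeDiam e) (hdim : 5 ≤ finrank ℝ E)
    (hl : IsLeast {k | Blaschke.MultLE e k} 3) :
    Blaschke.GeodesicSymmetric e ∧ Blaschke.TwoPointHomogeneous M := by
  refine main_three_of he hinj hdim hl ?_
  intro F D hD hB hdiam hl n N hN hE hn p o ρ r₀ hJ hρ c η h
  exact abs_c_le F hD hB hdiam hl hN hE hn hJ hρ h

end

end Vale.Agent.P231.L3
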