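import Vale.Agent.P231.L3.Three

/-! P231, stage 2, block L: the top power of the closed form of `M` is not exact. -/

set_option maxSynthPendingDepth 3
set_option linter.unusedSectionVars false
set_option linter.unusedVariables false

open Bundle Manifold Set Filter Module MeasureTheory
open scoped ContDiff Manifold Topology ENNReal Real

namespace Vale.Agent.P231.L3

noncomputable section

open Vale.Agent.P234 Vale.Agent.P231 Vale.Agent.P231.Fm Vale.Agent.P231.W Vale.Agent.P231.WR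
  Vale.Agent.P231.H766 Vale.Agent.P231.WG Vale.Agent.P231.S2II Vale.Agent.P231.WQ

section sys

variable {B U M : Type*} {dB : Dif B} {dU : Dif U} {dM : Dif M} {n : ℕ} {D c : ℝ}
  (S : H584.Sys dB dU dM n D c)

/-- the push-forward of `b₀` times a form of the base -/
theorem sys_P (v : Form dU) : S.P (S.b0 * Form.pull S.pi S.hpi v) = S.k • v := by
  rw [S.hPm]
  have h : S.P S.b0 = S.k • 1 := S.hk0
  rw [h, smul_mul_assoc, one_mul]

/-- the integral of an exact form of the base -/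
theorem sys_I_d (v : Form dU) : S.I v.d = 0 := by
  have h1 := S.hId (S.b0 * Form.pull S.pi S.hpi v)
  have h2 : (S.b0 * Form.pull S.pi S.hpi v).d = S.b0 * Form.pull S.pi S.hpi v.d := by
    rw [Form.d_mul, S.b0_d, zero_mul, zero_add, S.b0_sg, Form.pull_d]
  rw [h2, sys_P, map_smul, smul_eq_mul] at h1
  exact (mul_eq_zero.1 h1).resolve_left S.hk

/-- the integral of a product of a form of the foot point and a form of the cut point -/
theorem sys_I_fb (α β : Form dM) :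
    S.I (Form.pull S.foot S.hfoot α * Form.pull (fun v => S.foot (S.φU (v, D))) S.bar_map β) =
      0 := by
  have e1 : Form.pull S.pi S.hpi (Form.pull S.foot S.hfoot α) =
      Form.pull (fun b => S.foot (S.pi b)) S.footpi_map α :=
    H584.pull_pull S.hpi S.hfoot S.footpi_map (fun _ => rfl) α
  have e2 : Form.pull S.pi S.hpi (Form.pull (fun v => S.foot (S.φU (v, D))) S.bar_map β) =
      Form.pull (fun b => S.foot (S.φU (S.pi b, D))) S.barpi_map β :=
    H584.pull_pull S.hpi S.bar_map S.barpi_map (fun _ => rfl) β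
  have b1 : Basic S.ψ S.hψ.map (Form.pull (fun b => S.foot (S.pi b)) S.footpi_map α) :=
    H584.basic_pull S.footpi_map S.hfψ α
  have b2 : Basic S.ψ S.hψ.map
      (Form.pull (fun b => S.foot (S.φU (S.pi b, D))) S.barpi_map β) :=
    H584.basic_pull S.barpi_map S.hfψ' β
  have b0 : Basic S.ψ S.hψ.map S.b0 := H584.J_basic S.hψ _
  have h1 := S.hIψ (S.b0 * Form.pull S.pi S.hpi (Form.pull S.foot S.hfoot α *
    Form.pull (fun v => S.foot (S.φU (v, D))) S.bar_map β)) (by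
      refine H584.Basic.mul b0 ?_
      have e3 : Form.pull S.pi S.hpi (Form.pull S.foot S.hfoot α *
          Form.pull (fun v => S.foot (S.φU (v, D))) S.bar_map β) =
          Form.pull (fun b => S.foot (S.pi b)) S.footpi_map α *
          Form.pull (fun b => S.foot (S.φU (S.pi b, D))) S.barpi_map β := by
        rw [← e1, ← e2]
        exact map_mul (Form.pullA S.pi S.hpi) _ _
      rw [e3]
      exact H584.Basic.mul b1 b2)
  rw [sys_P, map_smul, smul_eq_mul] at h1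
  exact (mul_eq_zero.1 h1).resolve_left S.hk

/-- **the top power of `F` is not exact** -/
theorem sys_pow_ne (hI : S.I (S.B0 * (S.Fx ^ (n + 1) * S.Fb ^ n)) ≠ 0) (Γ : Form dM) :
    S.F ^ (n + 1) ≠ Γ.d := by
  intro hΓ
  refine hI ?_
  obtain ⟨-, ee, -, -, bo, bd, -⟩ := S.pthB0
  obtain ⟨xd, xe, -⟩ := S.Fx_good
  obtain ⟨yd, ye, -⟩ := S.Fb_good
  have hx : ∀ k : ℕ, Form.pull S.foot S.hfoot (S.F ^ k) = S.Fx ^ k := fun k =>
    map_pow (Form.pullA S.foot S.hfoot) _ k
  have hy : ∀ k : ℕ, Form.pull (fun v => S.foot (S.φU (v, D))) S.bar_map (S.F ^ k) = S.Fb ^ k :=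
    fun k => map_pow (Form.pullA (fun v => S.foot (S.φU (v, D))) S.bar_map) _ k
  set g := Form.pull S.foot S.hfoot Γ with hg
  have hgd : g.d = S.Fx ^ (n + 1) := by rw [hg, ← Form.pull_d, ← hΓ, hx]
  have hyd : (S.Fb ^ n).d = 0 := H584.pow_closed yd n
  have hye : (S.Fb ^ n).sg = S.Fb ^ n := H584.pow_even ye n
  -- the two integrals which vanish
  have i1 : S.I (g * S.Fb ^ (n + 1)) = 0 := by
    rw [hg, ← hy]
    exact sys_I_fb S _ _
  have i2 : S.I (S.Fx * g * S.Fb ^ n) = 0 := by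
    have e : S.Fx * g = Form.pull S.foot S.hfoot (S.F * Γ) :=
      (map_mul (Form.pullA S.foot S.hfoot) _ _).symm
    rw [e, ← hy]
    exact sys_I_fb S _ _
  have i3 : S.I (S.B0 * g * S.Fb ^ n).d = 0 := sys_I_d S _
  have e1 : (S.B0 * g * S.Fb ^ n).d = g * S.Fb ^ (n + 1) - S.Fx * g * S.Fb ^ n -
      S.B0 * (S.Fx ^ (n + 1) * S.Fb ^ n) := by
    have c1 : S.Fb * g = g * S.Fb := (H584.even_comm ye g).eq
    rw [Form.d_mul, hyd, mul_zero, add_zero, Form.d_mul, bd, bo, hgd, sub_mul, c1, neg_mul,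
      add_mul, sub_mul, neg_mul, pow_succ' S.Fb n, mul_assoc g, mul_assoc S.B0]
    abel
  rw [e1, map_sub, map_sub, i1, i2, sub_zero, zero_sub, neg_eq_zero] at i3
  exact i3

end sys

variable {E : Type*} [NormedAddCommGroup E] [NormedSpace ℝ E]
  {M : Type*} [MetricSpace M] [ChartedSpace E M]
  [RiemannianBundle (fun x : M => TangentSpace 𝓘(ℝ, E) x)]
  {e : ∀ x : M, TangentSpace 𝓘(ℝ, E) x → M}
  [FiniteDimensional ℝ E] [IsManifold 𝓘(ℝ, E) ∞ M]
  [IsContMDiffRiemannianBundle 𝓘(ℝ, E) ∞ E (fun x : M => TangentSpace 𝓘(ℝ, E) x)]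
  [CompactSpace M] [ConnectedSpace M] [IsRiemannianManifold 𝓘(ℝ, E) M]
  (F : Facts e) {D : ℝ} (hD : 0 < D) (hB : InjGE e D) (hdiam : ∀ p q : M, dist p q ≤ D)
  {n N : ℕ}

section three

variable (hl : ∀ x y : M, dist x y = D → finrank ℝ (H775.Pl e D x y) = 2 * 1 + 2)
  (hN : finrank ℝ E = N + 1) (hE : N + 1 = (2 * 1 + 2) * (n + 1))
  {p : M}
  {Pi : TangentSpace 𝓘(ℝ, E) p → TangentSpace 𝓘(ℝ, E) p →L[ℝ] TangentSpace 𝓘(ℝ, E) p}
  {o : TangentSpace 𝓘(ℝ, E) p → Fm.Lam (TangentSpace 𝓘(ℝ, E) p)}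
  {ρ : TangentSpace 𝓘(ℝ, E) p → ℝ} {r₀ : ℝ}
  (hJ : FE.LineP e D p 1 Pi o) (hρ : WE.Rho e D p ρ r₀) {a : ℝ} (ha : a ≠ 0)

include hN hE ha in
/-- **the top power of the closed form of `M` is not exact** -/
theorem FF_pow_ne (Γ : Form (dM E M)) :
    (FE.FF F hD hB hdiam hl hJ hρ a) ^ (n + 1) ≠ Γ.d := by
  borelize M
  have hnt : Nontrivial E := nontrivial_of_finrank_pos (R := ℝ) (by omega)
  obtain ⟨v0, -⟩ := S2II.exists_foot (E := E) p
  obtain ⟨X⟩ := nonempty_fr F hD hB p (D + 1)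
  obtain ⟨r, K, hr, hrad⟩ := exists_radCut (V := Eu E)
  have hDR : D < D + 1 := lt_add_one D
  let b : OrthonormalBasis (Fin (N + 1)) ℝ (Eu E) :=
    (stdOrthonormalBasis ℝ (Eu E)).reindex (finCongr (by
      rw [finrank_euclideanSpace, Fintype.card_fin, hN]))
  obtain ⟨T, Lm, Y, ε₀, hT, hw, hL, -, hrev, -⟩ :=
    S2N.exists_all F hD hB hdiam (l := 2 * 1 + 1) hl
  obtain ⟨g, hg, hg0, hg1, h1⟩ := hL.exists_b1 (l := 2 * 1 + 1) hl
  exact sys_pow_ne (inst F hD hB hdiam hl hN hE hJ hρ ha hL g hg hg0 hg1 X v0 hr hDR b)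
    (inst_q_ne F hD hB hdiam hl hN hE hJ hρ ha hL g hg hg0 hg1 X v0 hr hDR b hrad) Γ

end three

end

end Vale.Agent.P231.L3
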