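import Vale.Agent.P231.H584.Sys
import Vale.Agent.P231.H766.PushL
import Vale.Agent.P231.WR.DimPr
import Vale.Agent.P231.WR.Tra
import Vale.Agent.P231.WR.Kap

/-!
# P231, stages 2 and 3: the system of data on the space of pairs
-/

set_option maxSynthPendingDepth 3
set_option linter.unusedSectionVars false
set_option linter.unusedVariables false

open Bundle Manifold Set Filter Module
open scoped ContDiff Manifold Topology Real

namespace Vale.Agent.P231.L3

noncomputable section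

open Vale.Agent.P234 Vale.Agent.P231 Vale.Agent.P231.Fm Vale.Agent.P231.W Vale.Agent.P231.WR
  Vale.Agent.P231.H766 Vale.Agent.P231.WG

variable {E : Type*} [NormedAddCommGroup E] [NormedSpace ℝ E]
  {M : Type*} [MetricSpace M] [ChartedSpace E M]
  [RiemannianBundle (fun x : M => TangentSpace 𝓘(ℝ, E) x)]
  {e : ∀ x : M, TangentSpace 𝓘(ℝ, E) x → M}
  [FiniteDimensional ℝ E] [IsManifold 𝓘(ℝ, E) ∞ M]
  [IsContMDiffRiemannianBundle 𝓘(ℝ, E) ∞ E (fun x : M => TangentSpace 𝓘(ℝ, E) x)]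
  [CompactSpace M] [ConnectedSpace M] [IsRiemannianManifold 𝓘(ℝ, E) M]

theorem map_ngP (F : Facts e) {D : ℝ} (hD : 0 < D) (hB : InjGE e D)
    (hdiam : ∀ p q : M, dist p q ≤ D) : (dPr e D).Map (dPr e D) (ngP F hD hB hdiam) :=
  fun h => ⟨h.1, map_ng h.2⟩

/-- integration along the fibres of the space of pairs over the unit tangent bundle -/
structure FibI (F : Facts e) {D : ℝ} (hD : 0 < D) (hB : InjGE e D)
    (hdiam : ∀ p q : M, dist p q ≤ D) (l : ℕ) (P : Form (dPr e D) →ₗ[ℝ] Form (dUT E M)) :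
    Prop where
  d : ∀ w : Form (dPr e D), P w.d = (P w).d
  mul : ∀ (w : Form (dPr e D)) (v : Form (dUT E M)), P (w * Form.pull Pr.v map_v v) = P w * v
  deg : ∀ (j : ℕ) (w : Form (dPr e D)), P (Form.part (j + (l - 1)) w) = Form.part j (P w)

section

variable {F : Facts e} {D : ℝ} {hD : 0 < D} {hB : InjGE e D}
    {hdiam : ∀ p q : M, dist p q ≤ D} {Lam : Pr e D × ℝ → Pr e D} {Y : Pr e D → E} {ε₀ : ℝ}

/-- `Th` commutes with the lifted flow -/
theorem Th_eq (h : PushL F hD hB hdiam Lam Y ε₀) (b : Pr e D) :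
    Th F hD hB hdiam b = ngP F hD hB hdiam (Lam (b, D)) := by
  rw [h.half, ngP_ngP]

theorem Th_Lam (h : PushL F hD hB hdiam Lam Y ε₀) (b : Pr e D) (t : ℝ) :
    Th F hD hB hdiam (Lam (b, t)) = Lam (Th F hD hB hdiam b, t) := by
  rw [Th_eq h, Th_eq h, h.neg, h.flow.add, h.flow.add, add_comm t D]

end

section

variable {F : Facts e} {D : ℝ} {hD : 0 < D} {hB : InjGE e D}
    {hdiam : ∀ p q : M, dist p q ≤ D} {l N : ℕ} {P : Form (dPr e D) →ₗ[ℝ] Form (dUT E M)}
    {I : Form (dUT E M) →ₗ[ℝ] ℝ}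

theorem FibI.top (hl : 1 ≤ l) (hP : FibI F hD hB hdiam l P)
    (hIm : ∀ w, I w = I (Form.part (2 * N + 1) w)) (w : Form (dPr e D)) :
    (I ∘ₗ P) w = (I ∘ₗ P) (Form.part (2 * N + l) w) := by
  have h1 : 2 * N + l = 2 * N + 1 + (l - 1) := by omega
  change I (P w) = I (P (Form.part (2 * N + l) w))
  rw [h1, hP.deg, ← hIm]

/-- the functional is invariant under the lifted flow -/
theorem FibI.flow (hl : 1 ≤ l) (hP : FibI F hD hB hdiam l P)
    (hIm : ∀ w, I w = I (Form.part (2 * N + 1) w)) (hId : ∀ w : Form (dUT E M), I w.d = 0)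
    (hdim : WF.DimEq (dPr e D) (2 * N + l)) {Lam : Pr e D × ℝ → Pr e D}
    (hLam : IsFlow (dPr e D) (2 * D) Lam) (c : ℝ) (w : Form (dPr e D)) :
    I (P (Form.pull (fun b => Lam (b, c)) (H584.map_at hLam.map c) w)) = I (P w) :=
  fun_pull_flow hdim (I ∘ₗ P) (hP.top hl hIm) (fun w => by
    change I (P w.d) = 0
    rw [hP.d, hId]) hLam.map hLam.zero c w

/-- the involution changes the sign, from the antipodal map of the fibres -/
theorem FibI.sigma (hl : 1 ≤ l) (hP : FibI F hD hB hdiam l P)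
    (hIm : ∀ w, I w = I (Form.part (2 * N + 1) w)) (hId : ∀ w : Form (dUT E M), I w.d = 0)
    (hdim : WF.DimEq (dPr e D) (2 * N + l)) {Lam : Pr e D × ℝ → Pr e D} {Y : Pr e D → E} {ε₀ : ℝ}
    (hL : PushL F hD hB hdiam Lam Y ε₀)
    (hneg : ∀ w : Form (dPr e D),
      P (Form.pull (ngP F hD hB hdiam) (map_ngP F hD hB hdiam) w) = -P w) (w : Form (dPr e D)) :
    I (P (Form.pull (Th F hD hB hdiam) (map_Th F hD hB hdiam) w)) = -I (P w) := by
  have h1 : Form.pull (Th F hD hB hdiam) (map_Th F hD hB hdiam) w =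
      Form.pull (fun b => Lam (b, D)) (H584.map_at hL.flow.map D)
        (Form.pull (ngP F hD hB hdiam) (map_ngP F hD hB hdiam) w) :=
    (H584.pull_pull (H584.map_at hL.flow.map D) (map_ngP F hD hB hdiam)
      (map_Th F hD hB hdiam) (fun b => (Th_eq hL b).symm) w).symm
  rw [h1, hP.flow hl hIm hId hdim hL.flow, hneg, map_neg]

/-- basic forms are killed -/
theorem FibI.basic (hl : 1 ≤ l) (hP : FibI F hD hB hdiam l P)
    (hIm : ∀ w, I w = I (Form.part (2 * N + 1) w))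
    (hdim : WF.DimEq (dPr e D) (2 * N + l)) {Φ : Pr e D × ℝ → Pr e D} {c : ℝ}
    (hΦ : IsFlow (dPr e D) c Φ) (hmv : ∀ v, Moves (dPr e D) Φ v) (w : Form (dPr e D))
    (hb : Basic Φ hΦ.map w) : I (P w) = 0 :=
  fun_basic_eq_zero hdim (I ∘ₗ P) (hP.top hl hIm) hΦ.map hΦ.zero hmv w hb

end

/-- **the system of data on the space of pairs** -/
def mkSys (F : Facts e) {D : ℝ} (hD : 0 < D) (hB : InjGE e D)
    (hdiam : ∀ p q : M, dist p q ≤ D) {l N n : ℕ} (hl : 1 ≤ l)
    (hP : ∀ x y : M, dist x y = D → finrank ℝ (H775.Pl e D x y) = l + 1)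
    (hN : finrank ℝ E = N + 1)
    -- the lifted flow (703, 766)
    {Lam : Pr e D × ℝ → Pr e D} {Y : Pr e D → E} {ε₀ : ℝ}
    (hL : PushL F hD hB hdiam Lam Y ε₀)
    -- the contraction (766)
    (g : Pr e D × ℝ → M) (hg : ((dPr e D).prod (Dif.lin ℝ)).Map (dM E M) g)
    (hg0 : ∀ b, g (b, 0) = foot b.v) (hg1 : ∀ b t, g (Lam (b, t), 1) = g (b, 1))
    -- the closed form (637)
    (Om : Form (dM E M)) (hOe : Om.sg = Om) (hOd : Om.d = 0) (hOn : Om ^ (n + 2) = 0)
    -- the contact form (304)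
    (α : Form (dUT E M)) (hαo : α.sg = -α)
    (hα : Form.pull (phi F) (map_phi F) α = pr α + dt)
    -- the functional on the unit tangent bundle
    (I : Form (dUT E M) →ₗ[ℝ] ℝ) (hId : ∀ w : Form (dUT E M), I w.d = 0)
    (hIm : ∀ w, I w = I (Form.part (2 * N + 1) w))
    -- integration along the fibres (304, 635)
    (P : Form (dPr e D) →ₗ[ℝ] Form (dUT E M)) (hPf : FibI F hD hB hdiam l P)
    (hIσ : ∀ w : Form (dPr e D),
      I (P (Form.pull (Th F hD hB hdiam) (map_Th F hD hB hdiam) w)) = -I (P w))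
    (k : ℝ) (hk : k ≠ 0)
    (hk0 : P (J (R F hD hB hdiam) (isFlow_R F hD hB hdiam).map (2 * π)
      (Form.pull Pr.v map_v (B0 F D Om))) = k • 1) :
    H584.Sys (dPr e D) (dUT E M) (dM E M) n D (2 * π) where
  φU := phi F
  φ := Lam
  ψ := R F hD hB hdiam
  pi := Pr.v
  foot := foot
  σ := Th F hD hB hdiam
  g := g
  F := Om
  α := α
  I := I
  P := P
  k := k
  hD := hD
  hφU := isFlow_phi F hD hB hdiam
  hφ := hL.flow
  hψ := isFlow_R F hD hB hdiam
  hpi := map_v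
  hpφ := hL.v
  hfoot := map_foot
  hfψ := fun b t => rfl
  hfψ' := fun b t => bar_rv F hD hB hdiam b t
  hσ := map_Th F hD hB hdiam
  hσσ := Th_Th F hD hB hdiam
  hσφ := fun b t => Th_Lam hL b t
  hσπ := fun b => rfl
  hg := hg
  hg0 := hg0
  hg1 := hg1
  hFe := hOe
  hF := hOd
  hFn := hOn
  hαo := hαo
  hα := hα
  hId := fun w => by rw [hPf.d, hId]
  hIφ := fun w hw => hPf.basic hl hIm (dimEq_Pr F hD hB hdiam hl hP hN) hL.flow
    (moves_lift F hL.v) w hw
  hIψ := fun w hw => hPf.basic hl hIm (dimEq_Pr F hD hB hdiam hl hP hN)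
    (isFlow_R F hD hB hdiam) (moves_R F hD hB hdiam) w hw
  hIσ := hIσ
  hPd := hPf.d
  hPm := hPf.mul
  hk := hk
  hk0 := hk0

end

end Vale.Agent.P231.L3
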